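import Vale.Agent.P274.Surface.Defs
import Vale.Agent.P274.Arc
import Mathlib.Analysis.Complex.Convex
import Mathlib.Topology.OpenPartialHomeomorph.Constructions
import Mathlib.Analysis.Calculus.InverseFunctionTheorem.ContDiff

/-!
Coordinates for the corner argument: squares, straightened arcs, charts from pairs of functions.
-/

open Filter Metric Set Function Topology Complex

namespace Vale.Agent.P274.Surface

noncomputable section

/-- The open square about `0` of half side `s`. -/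
def sqr (s : ℝ) : Set ℂ := {u | |u.re| < s ∧ |u.im| < s}

theorem isOpen_sqr (s : ℝ) : IsOpen (sqr s) :=
  (isOpen_lt continuous_re.abs continuous_const).inter
    (isOpen_lt continuous_im.abs continuous_const)

theorem zero_mem_sqr {s : ℝ} (hs : 0 < s) : (0 : ℂ) ∈ sqr s := ⟨by simpa using hs, by simpa using hs⟩

theorem convex_sqr (s : ℝ) : Convex ℝ (sqr s) := by
  have h1 : sqr s = re ⁻¹' Ioo (-s) s ∩ im ⁻¹' Ioo (-s) s := by
    ext u; simp [sqr, abs_lt]
  rw [h1]
  exact ((convex_Ioo _ _).is_linear_preimage reLm.isLinear).inter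
    ((convex_Ioo _ _).is_linear_preimage imLm.isLinear)

theorem convex_sqr_pos (s : ℝ) : Convex ℝ (sqr s ∩ {u | 0 < u.re}) :=
  (convex_sqr s).inter ((convex_Ioi 0).is_linear_preimage reLm.isLinear)

theorem convex_sqr_neg (s : ℝ) : Convex ℝ (sqr s ∩ {u | u.re < 0}) :=
  (convex_sqr s).inter ((convex_Iio 0).is_linear_preimage reLm.isLinear)

theorem exists_sqr_subset {O : Set ℂ} (hO : O ∈ 𝓝 (0 : ℂ)) : ∃ s > 0, sqr s ⊆ O := by
  obtain ⟨r, hr, hsub⟩ := Metric.mem_nhds_iff.1 hO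
  refine ⟨r / 2, half_pos hr, fun u hu => hsub ?_⟩
  rw [mem_ball_zero_iff]
  have h1 := Complex.norm_le_abs_re_add_abs_im u
  linarith [hu.1, hu.2]

/-- The coordinate change straightening a regular zero set in the plane. -/
structure Flat (ρ : ℂ → ℝ) (b : ℂ) (O : Set ℂ) where
  φ : OpenPartialHomeomorph ℂ ℂ
  s : ℝ
  s_pos : 0 < s
  mem : b ∈ φ.source
  sub : φ.source ⊆ O
  target_eq : φ.target = sqr s
  center : φ b = 0
  re_eq : ∀ u ∈ φ.source, (φ u).re = ρ u
  strict : ∀ u ∈ φ.source, ∃ T : ℂ →L[ℝ] ℂ, HasStrictFDerivAt φ T u ∧ Injective T ∧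
    ∀ v, (T v).re = fderiv ℝ ρ u v
  strict_symm : ∀ z ∈ φ.target, ∃ T : ℂ →L[ℝ] ℂ, HasStrictFDerivAt φ.symm T z ∧ Injective T

theorem exists_flat {ρ : ℂ → ℝ} (hρ : ContDiff ℝ 1 ρ) {b : ℂ} (hb : ρ b = 0)
    (hd : fderiv ℝ ρ b ≠ 0) {O : Set ℂ} (hO : O ∈ 𝓝 b) : Nonempty (Flat ρ b O) := by
  set ν := nrm ρ b with hν
  have hν0 : ν ≠ 0 := nrm_ne_zero hd
  have hg : 0 < ‖grad ρ b‖ := norm_pos_iff.2 (grad_ne_zero hd)
  set L : ℂ →L[ℝ] ℝ := imCLM.comp (ν⁻¹ • ContinuousLinearMap.id ℝ ℂ) with hL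
  have hLap : ∀ v, L v = (v / ν).im := fun v => by simp [hL, div_eq_inv_mul]
  set F : ℂ → ℂ := fun u => equivRealProdCLM.symm (ρ u, L (u - b)) with hF
  set D : ℂ → ℂ →L[ℝ] ℂ := fun u =>
    (equivRealProdCLM.symm : ℝ × ℝ →L[ℝ] ℂ).comp ((fderiv ℝ ρ u).prod L) with hD
  have hstrict : ∀ u, HasStrictFDerivAt F (D u) u := fun u =>
    (equivRealProdCLM.symm : ℝ × ℝ →L[ℝ] ℂ).hasStrictFDerivAt.comp u
      (((hρ.contDiffAt).hasStrictFDerivAt (by simp)).prodMk
        ((L.hasStrictFDerivAt.comp u ((hasStrictFDerivAt_id u).sub_const b)).congr_fderiv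
          (by simp)))
  have hre : ∀ u v, (D u v).re = fderiv ℝ ρ u v := fun u v => by
    simp [hD, equivRealProdCLM_symm_apply]
  have him : ∀ u v, (D u v).im = L v := fun u v => by
    simp [hD, equivRealProdCLM_symm_apply]
  have hinj : ∀ u, fderiv ℝ ρ u ν ≠ 0 → Injective (D u) := by
    intro u hu
    rw [injective_iff_map_eq_zero]
    intro v hv
    have h1 : fderiv ℝ ρ u v = 0 := by rw [← hre, hv]; simp
    have h2 : (v / ν).im = 0 := by rw [← hLap, ← him u, hv]; simp
    have hv' : v = (v / ν).re • ν := by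
      have : v / ν = (((v / ν).re : ℝ) : ℂ) := Complex.ext (by simp) (by simp [h2])
      rw [Complex.real_smul, ← this, div_mul_cancel₀ _ hν0]
    rw [hv', map_smul, smul_eq_mul, mul_eq_zero] at h1
    rcases h1 with h | h
    · rw [hv', h, zero_smul]
    · exact absurd h hu
  have hequiv : ∀ u, fderiv ℝ ρ u ν ≠ 0 →
      ∃ T : ℂ ≃L[ℝ] ℂ, (T : ℂ →L[ℝ] ℂ) = D u := fun u hu =>
    ⟨(LinearMap.linearEquivOfInjective (D u : ℂ →ₗ[ℝ] ℂ) (hinj u hu) rfl).toContinuousLinearEquiv,
      ContinuousLinearMap.ext fun v => rfl⟩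
  have hb0 : fderiv ℝ ρ b ν ≠ 0 := by
    rw [← mul_one ν, fderiv_nrm_mul]; simp [hg.ne']
  obtain ⟨T₀, hT₀⟩ := hequiv b hb0
  have h₀ : HasStrictFDerivAt F (T₀ : ℂ →L[ℝ] ℂ) b := hT₀ ▸ hstrict b
  set e₀ := h₀.toOpenPartialHomeomorph F
  have hcont : Continuous fun u => fderiv ℝ ρ u ν :=
    (hρ.continuous_fderiv (by norm_num)).clm_apply continuous_const
  obtain ⟨O', hO', hO'o, hbO⟩ := _root_.mem_nhds_iff.1 hO
  set S : Set ℂ := O' ∩ {u | fderiv ℝ ρ u ν ≠ 0}
  have hSo : IsOpen S := hO'o.inter (isOpen_ne_fun hcont continuous_const)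
  set e₁ := e₀.restrOpen S hSo
  have hb1 : b ∈ e₁.source := ⟨h₀.mem_toOpenPartialHomeomorph_source, hbO, hb0⟩
  have hFb : F b = 0 := by simp [hF, hb, equivRealProdCLM_symm_apply]
  obtain ⟨s, hs, hsub⟩ := exists_sqr_subset (show e₁.target ∈ 𝓝 (0 : ℂ) by rw [← hFb]; exact e₁.open_target.mem_nhds (e₁.map_source hb1))
  set e₂ := (e₁.symm.restrOpen (sqr s) (isOpen_sqr s)).symm
  have hcoe : ∀ u, e₂ u = F u := fun u => rfl
  have htarget : e₂.target = sqr s := by
    change e₁.target ∩ sqr s = _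
    exact inter_eq_right.2 hsub
  have hsrc : e₂.source ⊆ e₁.source := by
    intro u hu
    have h1 := e₂.map_source hu
    rw [htarget] at h1
    rw [← e₂.left_inv hu]
    exact e₁.map_target (hsub h1)
  refine ⟨⟨e₂, s, hs, ?_, fun u hu => hO' (hsrc hu).2.1, htarget, (hcoe b).trans hFb,
    fun u hu => by rw [hcoe]; simp [hF, equivRealProdCLM_symm_apply],
    fun u hu => ⟨D u, hstrict u, hinj u (hsrc hu).2.2, hre u⟩, fun z hz => ?_⟩⟩
  · have h1 : (0 : ℂ) ∈ e₂.target := htarget ▸ zero_mem_sqr hs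
    have h2 : e₂.symm 0 = b := by rw [← hFb]; exact e₁.left_inv hb1
    exact h2 ▸ e₂.map_target h1
  · have hu := e₂.map_target hz
    obtain ⟨T, hT⟩ := hequiv _ (hsrc hu).2.2
    refine ⟨(T.symm : ℂ →L[ℝ] ℂ), ?_, T.symm.injective⟩
    refine e₂.hasStrictFDerivAt_symm hz ?_
    exact hT ▸ hstrict _

theorem Flat.symm_re {ρ : ℂ → ℝ} {b : ℂ} {O : Set ℂ} (F : Flat ρ b O) {z : ℂ}
    (hz : z ∈ F.φ.target) : ρ (F.φ.symm z) = z.re := by
  rw [← F.re_eq _ (F.φ.map_target hz), F.φ.right_inv hz]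

/-- Straightening with the opposite orientation. -/
def Flat.neg {ρ : ℂ → ℝ} {b : ℂ} {O : Set ℂ} (F : Flat ρ b O) : Flat (fun u => -ρ u) b O where
  φ := F.φ.transHomeomorph (Homeomorph.neg ℂ)
  s := F.s
  s_pos := F.s_pos
  mem := F.mem
  sub := F.sub
  target_eq := by
    ext z
    simp [OpenPartialHomeomorph.transHomeomorph, F.target_eq, sqr]
  center := by
    show -(F.φ b) = 0
    simp [F.center]
  re_eq := fun u hu => by
    show (-(F.φ u)).re = -ρ u
    simp [F.re_eq u hu]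
  strict := fun u hu => by
    obtain ⟨T, h1, h2, h3⟩ := F.strict u hu
    refine ⟨-T, h1.neg, fun v w hvw => h2 (neg_injective (by simpa using hvw)), fun v => ?_⟩
    rw [show (fun u => -ρ u) = -ρ from rfl, fderiv_neg]
    simp [h3 v]
  strict_symm := fun z hz => by
    have hz' : -z ∈ F.φ.target := by
      simpa [OpenPartialHomeomorph.transHomeomorph] using hz
    obtain ⟨T, h1, h2⟩ := F.strict_symm (-z) hz'
    exact ⟨T.comp (-ContinuousLinearMap.id ℝ ℂ), h1.comp z (hasStrictFDerivAt_id z).neg,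
      h2.comp fun v w hvw => neg_injective (by simpa using hvw)⟩

/-- A holomorphic chart from a pair of functions with independent differentials. -/
theorem exists_hchart {f g : C2 → ℂ} {B : Set C2} (hB : IsOpen B) (hf : DifferentiableOn ℂ f B)
    (hg : DifferentiableOn ℂ g B)
    (hdet : ∀ y ∈ B, fderiv ℂ f y (1, 0) * fderiv ℂ g y (0, 1) -
      fderiv ℂ f y (0, 1) * fderiv ℂ g y (1, 0) ≠ 0)
    {x : C2} (hx : x ∈ B) :
    ∃ c : HChart, x ∈ c.e.source ∧ c.e.source ⊆ B ∧ ∀ y, c.e y = (f y, g y) := by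
  have hP : DifferentiableOn ℂ (fun y => (f y, g y)) B := hf.prodMk hg
  have hiso : ∀ y ∈ B, ∃ T : C2 ≃L[ℂ] C2,
      HasStrictFDerivAt (fun y => (f y, g y)) (T : C2 →L[ℂ] C2) y := by
    intro y hy
    have hfy := ((hf y hy).differentiableAt (hB.mem_nhds hy)).hasFDerivAt
    have hgy := ((hg y hy).differentiableAt (hB.mem_nhds hy)).hasFDerivAt
    set L : C2 →L[ℂ] C2 := (fderiv ℂ f y).prod (fderiv ℂ g y) with hL
    have hLd : fderiv ℂ (fun y => (f y, g y)) y = L := (hfy.prodMk hgy).fderiv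
    have hinj : Injective (L : C2 →ₗ[ℂ] C2) := by
      rw [injective_iff_map_eq_zero]
      intro v hv
      have hdec : v = v.1 • ((1, 0) : C2) + v.2 • ((0, 1) : C2) := by
        apply Prod.ext <;> simp
      have h1 : fderiv ℂ f y v = 0 := congrArg Prod.fst hv
      have h2 : fderiv ℂ g y v = 0 := congrArg Prod.snd hv
      rw [hdec, map_add, map_smul, map_smul, smul_eq_mul, smul_eq_mul] at h1 h2
      have hd := hdet y hy
      refine Prod.ext ?_ ?_
      · have : v.1 * (fderiv ℂ f y (1, 0) * fderiv ℂ g y (0, 1) -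
            fderiv ℂ f y (0, 1) * fderiv ℂ g y (1, 0)) = 0 := by
          linear_combination (fderiv ℂ g y (0, 1)) * h1 - (fderiv ℂ f y (0, 1)) * h2
        simpa [hd] using this
      · have : v.2 * (fderiv ℂ f y (1, 0) * fderiv ℂ g y (0, 1) -
            fderiv ℂ f y (0, 1) * fderiv ℂ g y (1, 0)) = 0 := by
          linear_combination (fderiv ℂ f y (1, 0)) * h2 - (fderiv ℂ g y (1, 0)) * h1
        simpa [hd] using this
    refine ⟨(LinearMap.linearEquivOfInjective _ hinj rfl).toContinuousLinearEquiv, ?_⟩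
    convert! hasStrictFDerivAt hB hP hy using 1
    exact hLd.symm
  obtain ⟨T₀, h₀⟩ := hiso x hx
  set e₀ := h₀.toOpenPartialHomeomorph (fun y => (f y, g y))
  set e₁ := e₀.restrOpen B hB
  have hsrc : e₁.source ⊆ B := fun y hy => hy.2
  refine ⟨⟨e₁, hP.mono hsrc, fun w hw => ?_⟩, ⟨h₀.mem_toOpenPartialHomeomorph_source, hx⟩, hsrc,
    fun y => rfl⟩
  obtain ⟨T, hT⟩ := hiso _ (hsrc (e₁.map_target hw))
  exact (e₁.hasStrictFDerivAt_symm hw hT).hasFDerivAt.differentiableAt.differentiableWithinAt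

/-- Two functions whose real parts of differentials agree up to a factor have dependent complex
differentials. -/
theorem det_eq_zero_of_re {A A' : C2 →L[ℂ] ℂ} {r r' : ℂ →L[ℝ] ℝ} (hr : r ≠ 0)
    (h : ∀ v, r (A v) = r' (A' v)) :
    A (1, 0) * A' (0, 1) - A (0, 1) * A' (1, 0) = 0 := by
  set g : ℂ := ⟨r 1, r I⟩ with hg
  set g' : ℂ := ⟨r' 1, r' I⟩ with hg'
  have hexp : ∀ (l : ℂ →L[ℝ] ℝ) (u : ℂ), l u = (starRingEnd ℂ ⟨l 1, l I⟩ * u).re := by
    intro l u
    have : u = u.re • (1 : ℂ) + u.im • I := by apply Complex.ext <;> simp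
    conv_lhs => rw [this, map_add, map_smul, map_smul]
    simp
    ring
  have hg0 : g ≠ 0 := fun h0 => hr <| ContinuousLinearMap.ext fun u => by
    rw [hexp r u, ← hg, h0]; simp
  have hre : ∀ v, (starRingEnd ℂ g * A v).re = (starRingEnd ℂ g' * A' v).re := fun v => by
    rw [← hexp, ← hexp]; exact h v
  have hz : ∀ v, starRingEnd ℂ g * A v = starRingEnd ℂ g' * A' v := by
    intro v
    refine Complex.ext (hre v) ?_
    have := hre (I • v)
    rw [map_smul, map_smul, smul_eq_mul, smul_eq_mul, mul_left_comm, mul_left_comm _ I,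
      Complex.I_mul_re, Complex.I_mul_re] at this
    linarith
  have hgc : starRingEnd ℂ g ≠ 0 := by simpa using hg0
  have : starRingEnd ℂ g * (A (1, 0) * A' (0, 1) - A (0, 1) * A' (1, 0)) = 0 := by
    linear_combination (A' (0, 1)) * hz (1, 0) - (A' (1, 0)) * hz (0, 1)
  exact (mul_eq_zero.1 this).resolve_left hgc

/-- Finitely many closed sets are constant on some piece of a nonempty set. -/
theorem exists_piece_const {X ι : Type*} [TopologicalSpace X] {s : Finset ι} {F : ι → Set X}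
    (hF : ∀ i ∈ s, IsClosed (F i)) {S : Set X} (hS : S.Nonempty) :
    ∃ O, IsOpen O ∧ (S ∩ O).Nonempty ∧ ∀ i ∈ s, S ∩ O ⊆ F i ∨ Disjoint (S ∩ O) (F i) := by
  classical
  induction s using Finset.induction_on with
  | empty => exact ⟨univ, isOpen_univ, by simpa using hS, by simp⟩
  | @insert a s ha ih =>
    obtain ⟨O, hO, hne, hc⟩ := ih fun i hi => hF i (Finset.mem_insert_of_mem hi)
    by_cases hall : S ∩ O ⊆ F a
    · exact ⟨O, hO, hne, by
        intro i hi; rcases Finset.mem_insert.1 hi with rfl | hi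
        exacts [Or.inl hall, hc i hi]⟩
    · obtain ⟨y, hy, hya⟩ := not_subset.1 hall
      refine ⟨O ∩ (F a)ᶜ, hO.inter (hF a (Finset.mem_insert_self _ _)).isOpen_compl,
        ⟨y, hy.1, hy.2, hya⟩, fun i hi => ?_⟩
      rcases Finset.mem_insert.1 hi with rfl | hi
      · exact Or.inr (disjoint_left.2 fun z hz => hz.2.2)
      · exact (hc i hi).imp (fun h => (inter_subset_inter_right _ inter_subset_left).trans h)
          (fun h => h.mono_left (inter_subset_inter_right _ inter_subset_left))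

/-- A connected set missing the frontier of an open set is inside it as soon as it meets it. -/
theorem subset_of_frontier_free {X : Type*} [TopologicalSpace X] {U T : Set X} (hU : IsOpen U)
    (hT : IsPreconnected T) (hfree : ∀ y ∈ T, y ∉ frontier U) (hne : (T ∩ U).Nonempty) :
    T ⊆ U := by
  refine hT.subset_of_closure_inter_subset hU hne fun w hw => ?_
  by_contra hwU
  exact hfree w hw.2 (by rw [hU.frontier_eq]; exact ⟨hw.1, hwU⟩)

/-- A relatively clopen nonempty subset of a connected set is everything. -/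
theorem eq_of_relclopen {X : Type*} [TopologicalSpace X] {T A : Set X} (hT : IsPreconnected T)
    (hA : IsOpen A) (hcl : closure A ∩ T ⊆ A) (hne : (T ∩ A).Nonempty) : T ⊆ A :=
  hT.subset_of_closure_inter_subset hA hne hcl

end

end Vale.Agent.P274.Surface
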