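import Vale.Agent.P274.Surface.Corner.Piece
import Mathlib.Analysis.Calculus.FDeriv.Prod

/-!
Straightened coordinates from two of the families and the slopes of the others in them.
-/

open Filter Metric Set Function Topology Complex

namespace Vale.Agent.P274.Surface

noncomputable section

variable {Ω : Sys} (W : Web Ω.U)

/-- Coordinates straightening the distinguished family and the family `k` at `x`. -/
structure Web.Coords (k : Fin W.d) (ρ : ℂ → ℝ) (x : C2) where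
  c : HChart
  c_sub : c.e.source ⊆ W.chart.e.source
  c_eq : ∀ y, c.e y = (W.f₀ y, W.f k y)
  mem : x ∈ c.e.source
  F₀ : Flat W.ρ₀ (W.f₀ x) univ
  F : Flat ρ (W.f k x) univ

theorem Web.exists_coords {k : Fin W.d} (hk : k ≠ W.i₀) {x : C2} (hx : x ∈ W.chart.e.source)
    {ρ : ℂ → ℝ} (hρ : ContDiff ℝ 1 ρ) (h0 : W.ρ₀ (W.f₀ x) = 0) (h : ρ (W.f k x) = 0)
    (hd : fderiv ℝ ρ (W.f k x) ≠ 0) : Nonempty (W.Coords k ρ x) := by
  obtain ⟨c, hxc, hcsub, hce⟩ := exists_hchart W.chart.e.open_source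
    ((W.diff W.i₀).mono W.source_sub) ((W.diff k).mono W.source_sub)
    (fun y hy => W.transversal _ _ hk.symm y (W.source_sub hy)) hx
  obtain ⟨F₀⟩ := exists_flat W.contDiff₀ h0 (W.regular₀ _ (W.f₀_mem hx).1) univ_mem
  obtain ⟨F⟩ := exists_flat hρ h hd univ_mem
  exact ⟨⟨c, hcsub, hce, hxc, F₀, F⟩⟩

namespace Web.Coords

variable {W} {k : Fin W.d} {ρ : ℂ → ℝ} {x : C2} (K : W.Coords k ρ x)

/-- The coordinate map. -/
def P : OpenPartialHomeomorph C2 C2 := K.c.e.trans (K.F₀.φ.prod K.F.φ)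

theorem mem_source {y : C2} : y ∈ K.P.source ↔
    y ∈ K.c.e.source ∧ W.f₀ y ∈ K.F₀.φ.source ∧ W.f k y ∈ K.F.φ.source := by
  simp [P, K.c_eq]

theorem apply (y : C2) : K.P y = (K.F₀.φ (W.f₀ y), K.F.φ (W.f k y)) := by
  show (K.F₀.φ.prod K.F.φ) (K.c.e y) = _
  rw [K.c_eq]; rfl

theorem source_sub {y : C2} (hy : y ∈ K.P.source) : y ∈ W.chart.e.source :=
  K.c_sub (K.mem_source.1 hy).1

theorem self_mem : x ∈ K.P.source := K.mem_source.2 ⟨K.mem, K.F₀.mem, K.F.mem⟩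

theorem self_eq : K.P x = 0 := by rw [K.apply, K.F₀.center, K.F.center]; rfl

theorem re_fst {y : C2} (hy : y ∈ K.P.source) : (K.P y).1.re = W.ρ₀ (W.f₀ y) := by
  rw [K.apply]; exact K.F₀.re_eq _ (K.mem_source.1 hy).2.1

theorem re_snd {y : C2} (hy : y ∈ K.P.source) : (K.P y).2.re = ρ (W.f k y) := by
  rw [K.apply]; exact K.F.re_eq _ (K.mem_source.1 hy).2.2

theorem f₀_symm {p : C2} (hp : p ∈ K.P.target) :
    p.1 ∈ K.F₀.φ.target ∧ W.f₀ (K.P.symm p) = K.F₀.φ.symm p.1 := by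
  have h1 := K.P.map_target hp
  have h2 := congrArg Prod.fst (K.P.right_inv hp)
  rw [K.apply] at h2
  have h3 := (K.mem_source.1 h1).2.1
  refine ⟨h2 ▸ K.F₀.φ.map_source h3, ?_⟩
  rw [← h2, K.F₀.φ.left_inv h3]

theorem f_symm {p : C2} (hp : p ∈ K.P.target) :
    p.2 ∈ K.F.φ.target ∧ W.f k (K.P.symm p) = K.F.φ.symm p.2 := by
  have h1 := K.P.map_target hp
  have h2 := congrArg Prod.snd (K.P.right_inv hp)
  rw [K.apply] at h2
  have h3 := (K.mem_source.1 h1).2.2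
  refine ⟨h2 ▸ K.F.φ.map_source h3, ?_⟩
  rw [← h2, K.F.φ.left_inv h3]

theorem zero_mem : (0 : C2) ∈ K.P.target := K.self_eq ▸ K.P.map_source K.self_mem

theorem symm_zero : K.P.symm 0 = x := by
  rw [← K.self_eq]; exact K.P.left_inv K.self_mem

/-- The differential of the inverse coordinate map at the centre. -/
theorem exists_deriv : ∃ T : C2 →L[ℝ] C2, HasStrictFDerivAt K.P.symm T 0 ∧ Surjective T ∧
    (∃ A : ℂ →L[ℝ] ℂ, Injective A ∧ (∀ h, fderiv ℂ W.f₀ x (T h) = A h.1) ∧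
      ∀ v, fderiv ℝ W.ρ₀ (W.f₀ x) (A v) = v.re) ∧
    ∃ A : ℂ →L[ℝ] ℂ, Injective A ∧ (∀ h, fderiv ℂ (W.f k) x (T h) = A h.2) ∧
      ∀ v, fderiv ℝ ρ (W.f k x) (A v) = v.re := by
  have h0₀ : (0 : ℂ) ∈ K.F₀.φ.target := K.F₀.center ▸ K.F₀.φ.map_source K.F₀.mem
  have h0 : (0 : ℂ) ∈ K.F.φ.target := K.F.center ▸ K.F.φ.map_source K.F.mem
  obtain ⟨A₀, hA₀, hA₀i⟩ := K.F₀.strict_symm 0 h0₀
  obtain ⟨A, hA, hAi⟩ := K.F.strict_symm 0 h0
  set w := K.c.e x
  have hw : w ∈ K.c.e.target := K.c.e.map_source K.mem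
  set Tc := fderiv ℂ K.c.e.symm w
  have hTc : HasStrictFDerivAt K.c.e.symm Tc w :=
    hasStrictFDerivAt K.c.e.open_target K.c.diff_symm hw
  set L : C2 →L[ℂ] C2 := (fderiv ℂ W.f₀ x).prod (fderiv ℂ (W.f k) x)
  have hL : HasStrictFDerivAt (fun y => (W.f₀ y, W.f k y)) L (K.c.e.symm w) := by
    rw [K.c.e.left_inv K.mem]
    exact (hasStrictFDerivAt W.isOpen_B (W.diff _) (W.source_sub (K.c_sub K.mem))).prodMk
      (hasStrictFDerivAt W.isOpen_B (W.diff _) (W.source_sub (K.c_sub K.mem)))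
  have hid : L.comp Tc = ContinuousLinearMap.id ℂ C2 := by
    refine (hL.comp w hTc).hasFDerivAt.unique ((hasFDerivAt_id w).congr_of_eventuallyEq ?_)
    filter_upwards [K.c.e.open_target.eventually_mem hw] with v hv
    simp only [id_eq, ← K.c_eq, K.c.e.right_inv hv]
  have hLT : ∀ u, L (Tc u) = u := fun u => DFunLike.congr_fun hid u
  have hTs : Surjective Tc := by
    have hi : Injective (Tc : C2 →ₗ[ℂ] C2) := fun u v huv => by
      have : L (Tc u) = L (Tc v) := congrArg L huv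
      rwa [hLT, hLT] at this
    exact LinearMap.surjective_of_injective hi
  set D : C2 →L[ℝ] C2 := A₀.prodMap A
  have hD : HasStrictFDerivAt (fun p : C2 => (K.F₀.φ.symm p.1, K.F.φ.symm p.2)) D 0 :=
    (hA₀.comp (0 : C2) hasStrictFDerivAt_fst).prodMk (hA.comp (0 : C2) hasStrictFDerivAt_snd)
  have hwe : ((K.F₀.φ.symm (0 : C2).1, K.F.φ.symm (0 : C2).2) : C2) = w := by
    show (K.F₀.φ.symm 0, K.F.φ.symm 0) = K.c.e x
    have e₀ := K.F₀.φ.left_inv K.F₀.mem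
    have e := K.F.φ.left_inv K.F.mem
    rw [K.F₀.center] at e₀
    rw [K.F.center] at e
    rw [K.c_eq, e₀, e]
  have hre : ∀ {ρ' : ℂ → ℝ} {b : ℂ} {O : Set ℂ} (F : Flat ρ' b O) (B : ℂ →L[ℝ] ℂ),
      HasStrictFDerivAt F.φ.symm B 0 → DifferentiableAt ℝ ρ' b →
      ∀ v, fderiv ℝ ρ' b (B v) = v.re := by
    intro ρ' b O F B hB hρ v
    have h0 : (0 : ℂ) ∈ F.φ.target := F.center ▸ F.φ.map_source F.mem
    have hs : F.φ.symm 0 = b := by rw [← F.center]; exact F.φ.left_inv F.mem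
    have h1 : HasFDerivAt (ρ' ∘ F.φ.symm) ((fderiv ℝ ρ' b).comp B) 0 :=
      HasFDerivAt.comp 0 (hs.symm ▸ hρ.hasFDerivAt) hB.hasFDerivAt
    have h2 : HasFDerivAt (ρ' ∘ F.φ.symm) reCLM 0 :=
      reCLM.hasFDerivAt.congr_of_eventuallyEq (by
        filter_upwards [F.φ.open_target.eventually_mem h0] with z hz
        simp [F.symm_re hz])
    exact DFunLike.congr_fun (h1.unique h2) v
  refine ⟨(Tc.restrictScalars ℝ).comp D, ?_, ?_, ⟨A₀, hA₀i, fun h => congrArg Prod.fst (hLT (D h)),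
    hre K.F₀ A₀ hA₀ (W.contDiff₀.differentiable (by norm_num) _)⟩,
    ⟨A, hAi, fun h => congrArg Prod.snd (hLT (D h)), ?_⟩⟩
  · have h1 : HasStrictFDerivAt K.c.e.symm (Tc.restrictScalars ℝ)
        ((K.F₀.φ.symm (0 : C2).1, K.F.φ.symm (0 : C2).2) : C2) := by
      rw [hwe]; exact hTc.restrictScalars ℝ
    exact HasStrictFDerivAt.comp (g := K.c.e.symm)
      (f := fun p : C2 => (K.F₀.φ.symm p.1, K.F.φ.symm p.2)) (0 : C2) h1 hD
  · refine hTs.comp ?_
    rintro ⟨u, v⟩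
    obtain ⟨u', hu⟩ := (LinearMap.surjective_of_injective (f := (A₀ : ℂ →ₗ[ℝ] ℂ)) hA₀i) u
    obtain ⟨v', hv⟩ := (LinearMap.surjective_of_injective (f := (A : ℂ →ₗ[ℝ] ℂ)) hAi) v
    exact ⟨(u', v'), Prod.ext hu hv⟩
  · refine hre K.F A hA ?_
    by_contra h
    exact K.F.fderiv_ne K.F.mem (fderiv_zero_of_not_differentiableAt h)

theorem hasStrictFDerivAt_f (hxs : x ∈ W.chart.e.source) {T : C2 →L[ℝ] C2}
    (hT : HasStrictFDerivAt K.P.symm T 0) (l : Fin W.d) :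
    HasStrictFDerivAt (fun p => W.f l (K.P.symm p))
      (((fderiv ℂ (W.f l) x).restrictScalars ℝ).comp T) 0 := by
  have h1 : HasStrictFDerivAt (W.f l) ((fderiv ℂ (W.f l) x).restrictScalars ℝ) (K.P.symm 0) := by
    rw [K.symm_zero]
    exact (hasStrictFDerivAt W.isOpen_B (W.diff _) (W.source_sub hxs)).restrictScalars ℝ
  exact h1.comp (0 : C2) hT

/-- The two axis directions in the common zero set. -/
theorem eventually_axis {p : C2} (hp1 : p.1.re = 0) (hp2 : p.2.re = 0) {Q : C2 → Prop}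
    (hQ : ∀ᶠ y in 𝓝 x, W.ρ₀ (W.f₀ y) = 0 → ρ (W.f k y) = 0 → Q y) :
    ∀ᶠ t : ℝ in 𝓝 0, Q (K.P.symm (t • p)) := by
  have hc : ContinuousAt (fun t : ℝ => t • p) 0 := by fun_prop
  have hp : ∀ᶠ t : ℝ in 𝓝 0, t • p ∈ K.P.target :=
    hc.eventually (K.P.open_target.eventually_mem (by simpa using K.zero_mem))
  have hP : ContinuousAt (fun t : ℝ => K.P.symm (t • p)) 0 :=
    ContinuousAt.comp (g := K.P.symm) (f := fun t : ℝ => t • p)
      (K.P.symm.continuousAt (by simpa using K.zero_mem)) hc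
  rw [ContinuousAt, zero_smul, K.symm_zero] at hP
  filter_upwards [hp, hP.eventually hQ] with t ht htQ
  refine htQ ?_ ?_
  · rw [← K.re_fst (K.P.map_target ht), K.P.right_inv ht]; simp [hp1]
  · rw [← K.re_snd (K.P.map_target ht), K.P.right_inv ht]; simp [hp2]

include K in
/-- A family cannot be constant on the common zero set. -/
theorem not_const (l : Fin W.d) {ξ : ℂ}
    (h : ∀ᶠ y in 𝓝 x, W.ρ₀ (W.f₀ y) = 0 → ρ (W.f k y) = 0 → W.f l y = ξ) : False := by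
  obtain ⟨T, hT, hTs, ⟨A₀, hA₀i, hA₀, -⟩, A, hAi, hA, -⟩ := K.exists_deriv
  have hxs := K.c_sub K.mem
  set φ := fderiv ℂ (W.f l) x
  have hkill : ∀ p : C2, p.1.re = 0 → p.2.re = 0 → φ (T p) = 0 := by
    intro p hp1 hp2
    have hline : HasDerivAt (fun t : ℝ => t • p) p 0 := by
      simpa using (hasDerivAt_id (0 : ℝ)).smul_const p
    have h1 : HasDerivAt (fun t : ℝ => W.f l (K.P.symm (t • p))) (φ (T p)) 0 :=
      HasFDerivAt.comp_hasDerivAt (f := fun t : ℝ => t • p)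
        (l := fun q => W.f l (K.P.symm q)) (l' := (φ.restrictScalars ℝ).comp T) (0 : ℝ)
        (by rw [zero_smul]; exact (K.hasStrictFDerivAt_f hxs hT l).hasFDerivAt) hline
    exact h1.unique ((hasDerivAt_const (0 : ℝ) ξ).congr_of_eventuallyEq
      (K.eventually_axis hp1 hp2 h))
  set u₁ := T ((I : ℂ), 0)
  set u₂ := T ((0 : ℂ), I)
  have h11 : fderiv ℂ W.f₀ x u₁ = A₀ I := hA₀ _
  have h21 : fderiv ℂ (W.f k) x u₁ = 0 := by rw [hA]; exact map_zero A
  have h12 : fderiv ℂ W.f₀ x u₂ = 0 := by rw [hA₀]; exact map_zero A₀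
  have h22 : fderiv ℂ (W.f k) x u₂ = A I := hA _
  have hA₀I : A₀ I ≠ 0 := fun h => Complex.I_ne_zero (hA₀i (h.trans (map_zero A₀).symm))
  have hAI : A I ≠ 0 := fun h => Complex.I_ne_zero (hAi (h.trans (map_zero A).symm))
  have hLI : LinearIndependent ℂ ![u₁, u₂] := by
    rw [LinearIndependent.pair_iff]
    intro s t hst
    have e1 := congrArg (fderiv ℂ W.f₀ x) hst
    have e2 := congrArg (fderiv ℂ (W.f k) x) hst
    simp only [map_add, map_smul, h11, h12, h21, h22, map_zero, smul_eq_mul, mul_zero, add_zero,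
      zero_add, mul_eq_zero, hA₀I, hAI, or_false] at e1 e2
    exact ⟨e1, e2⟩
  have hb := (hLI.span_eq_top_of_card_eq_finrank (by simp))
  have hφ : (φ : C2 →ₗ[ℂ] ℂ) = 0 := LinearMap.ext_on_range hb fun i => by
    fin_cases i
    · simpa using hkill (I, 0) (by simp) (by simp)
    · simpa using hkill (0, I) (by simp) (by simp)
  exact W.nondeg l x (W.source_sub hxs) (LinearMap.congr_fun hφ (0, 1))

end Web.Coords

end

end Vale.Agent.P274.Surface
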