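import Vale.Agent.P274.Surface.Corner.Wedge

/-!
A generic point on a piece: one side is filled and the half walls are active everywhere or nowhere.
-/

open Filter Metric Set Function Topology Complex

namespace Vale.Agent.P274.Surface

noncomputable section

variable {Ω : Sys} {W : Web Ω.U} {j : Fin W.d} {Λ : Finset (Fin W.d)} {ρ : Fin W.d → ℂ → ℝ} {x : C2}

/-- A point of the piece through which only constant families pass. -/
theorem Web.exists_cfg (W : Web Ω.U) : ∃ (j : Fin W.d) (Λ : Finset (Fin W.d))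
    (ρ : Fin W.d → ℂ → ℝ) (x : C2), W.Cfg j Λ ρ x := by
  classical
  obtain ⟨j, x₀, ρ₀, hj, hx₀, hz₀, hρ₀, hz, hd, -, hC, hbd⟩ := W.exists_piece
  have hdc : ∀ᶠ u in 𝓝 (W.f j x₀), fderiv ℝ ρ₀ u ≠ 0 :=
    ((hρ₀.continuous_fderiv (by norm_num)).continuousAt).eventually_ne hd
  have hev : ∀ᶠ y in 𝓝 x₀, y ∈ W.chart.e.source ∧
      ((∀ᶠ u in 𝓝 (W.f j y), (u ∈ W.C ↔ ρ₀ u = 0) ∧ u ∉ W.X) ∧ fderiv ℝ ρ₀ (W.f j y) ≠ 0) ∧
      ∀ᶠ z in 𝓝 y, W.ρ₀ (W.f₀ z) = 0 → ρ₀ (W.f j z) = 0 → z ∈ W.bd :=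
    (W.chart.e.open_source.eventually_mem hx₀).and
      (((W.continuousAt_f hx₀).eventually (hC.eventually_nhds.and hdc)).and hbd.eventually_nhds)
  obtain ⟨N, hN, hNo, hxN⟩ := _root_.eventually_nhds_iff.1 hev
  set S := W.piece j ρ₀ ∩ N with hS
  set F : Fin W.d → Option ℂ → Set C2 := fun l o =>
    closure (W.chart.e.source ∩ W.f l ⁻¹' (o.elim W.C fun ξ => {ξ})) with hF
  have hFmem : ∀ l o, ∀ y ∈ W.chart.e.source, y ∈ F l o → W.f l y ∈ o.elim W.C fun ξ => {ξ} := by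
    intro l o y hy hyF
    have h1 := ((W.continuousAt_f (j := l) hy).continuousWithinAt.mem_closure_image hyF)
    refine closure_minimal (image_subset_iff.2 inter_subset_right) ?_ h1
    cases o
    exacts [W.isClosed_C, isClosed_singleton]
  obtain ⟨O, hO, ⟨x, ⟨hxp, hxN'⟩, hxO⟩, hconst⟩ := exists_piece_const
    (s := (Finset.univ : Finset (Fin W.d)) ×ˢ (insert none (W.finite_X.toFinset.image some)))
    (F := fun q => F q.1 q.2) (fun q _ => isClosed_closure)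
    (S := S) ⟨x₀, ⟨hz₀, hz⟩, hxN⟩
  obtain ⟨hx, ⟨hxC, hxd⟩, hxbd⟩ := hN x hxN'
  have hnear : ∀ {l o}, S ∩ O ⊆ F l o →
      ∀ᶠ y in 𝓝 x, y ∈ W.piece j ρ₀ → W.f l y ∈ o.elim W.C fun ξ => {ξ} := by
    intro l o hsub
    filter_upwards [hNo.eventually_mem hxN', hO.eventually_mem hxO] with y hy hy' hp
    exact hFmem l o y (hN y hy).1 (hsub ⟨⟨hp, hy⟩, hy'⟩)
  obtain ⟨K⟩ := W.exists_coords hj hx hρ₀ hxp.1 hxp.2 hxd
  have hX : ∀ l, W.f l x ∉ W.X := by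
    intro l hl
    rcases hconst (l, some (W.f l x)) (by simp [hl]) with h | h
    · exact K.not_const l (ξ := W.f l x) ((hnear h).mono fun y hy e1 e2 => hy ⟨e1, e2⟩)
    · exact Set.disjoint_left.1 h ⟨⟨hxp, hxN'⟩, hxO⟩ (subset_closure ⟨hx, rfl⟩)
  have hall : ∀ l, W.f l x ∈ W.C → ∀ᶠ y in 𝓝 x, y ∈ W.piece j ρ₀ → W.f l y ∈ W.C := fun l hl =>
    hnear (o := none) ((hconst (l, none) (by simp)).resolve_right fun h =>
      Set.disjoint_left.1 h ⟨⟨hxp, hxN'⟩, hxO⟩ (subset_closure ⟨hx, hl⟩))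
  have hreg : ∀ l, ∃ ρ : ℂ → ℝ, W.f l x ∈ W.C → ContDiff ℝ 1 ρ ∧ fderiv ℝ ρ (W.f l x) ≠ 0 ∧
      ∀ᶠ u in 𝓝 (W.f l x), (u ∈ W.C ↔ ρ u = 0) := fun l => by
    by_cases hl : W.f l x ∈ W.C
    · obtain ⟨ρ, h1, -, h3, h4⟩ := W.regular_C _ hl (hX l)
      exact ⟨ρ, fun _ => ⟨h1, h3, h4⟩⟩
    · exact ⟨0, fun h => absurd h hl⟩
  choose ρl hρl using hreg
  set Λ : Finset (Fin W.d) := Finset.univ.filter fun l => l ≠ W.i₀ ∧ W.f l x ∈ W.C
  have hΛ : ∀ {l}, l ∈ Λ ↔ l ≠ W.i₀ ∧ W.f l x ∈ W.C := fun {l} => by simp [Λ]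
  set ρ := Function.update ρl j ρ₀
  have hρj : ρ j = ρ₀ := Function.update_self ..
  have hρ : ∀ l ∈ Λ, ContDiff ℝ 1 (ρ l) ∧ fderiv ℝ (ρ l) (W.f l x) ≠ 0 ∧
      ∀ᶠ u in 𝓝 (W.f l x), (u ∈ W.C ↔ ρ l u = 0) := by
    intro l hl
    rcases eq_or_ne l j with rfl | hne
    · rw [hρj]; exact ⟨hρ₀, hxd, hxC.mono fun u hu => hu.1⟩
    · rw [show ρ l = ρl l from Function.update_of_ne hne _ _]; exact hρl l (hΛ.1 hl).2
  refine ⟨j, Λ, ρ, x, hΛ.2 ⟨hj, hxC.self_of_nhds.1.2 hxp.2⟩, fun l hl => (hΛ.1 hl).1, hx,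
    hρj ▸ hxp, fun l hl => (hρ l hl).1, fun l hl => (hρ l hl).2.1, fun l hl => (hρ l hl).2.2,
    fun l hl => ?_, fun l h1 h2 h3 => h2 (hΛ.2 ⟨h1, h3⟩), ?_⟩
  · filter_upwards [hall l (hΛ.1 hl).2, (W.continuousAt_f hx).eventually (hρ l hl).2.2]
      with y h1 h2 hp
    exact h2.1 (h1 (hρj ▸ hp))
  · exact hρj.symm ▸ hxbd.mono fun y hy hp => hy hp.1 hp.2

/-- One side of the piece is filled. -/
theorem Web.Cfg.exists_side (h : W.Cfg j Λ ρ x) :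
    ∃ (ρ' : Fin W.d → ℂ → ℝ) (x' : C2), W.Cfg j Λ ρ' x' ∧
      ∀ᶠ y in 𝓝 x', W.ρ₀ (W.f₀ y) = 0 → 0 < ρ' j (W.f j y) → y ∈ W.good := by
  classical
  obtain ⟨σ, q, -, -, -, hord⟩ := h.exists_order
  obtain ⟨K⟩ := W.exists_coords (h.ne j h.j_mem) h.mem (h.contDiff j h.j_mem) h.mem_piece.1
    h.mem_piece.2 (h.regular j h.j_mem)
  have hno : ∀ᶠ y in 𝓝 x, W.ρ₀ (W.f₀ y) = 0 → ρ j (W.f j y) ≠ 0 →
      ∀ l, l ≠ W.i₀ → W.f l y ∉ W.C := by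
    have hl : ∀ᶠ y in 𝓝 x, ∀ l, (l ∈ Λ → (W.f l y ∈ W.C ↔ ρ l (W.f l y) = 0)) ∧
        (l ≠ W.i₀ → l ∉ Λ → W.f l y ∉ W.C) := by
      refine eventually_all.2 fun l => ?_
      by_cases hl : l ∈ Λ
      · exact ((W.continuousAt_f h.mem).eventually (h.C_eq l hl)).mono fun y hy =>
          ⟨fun _ => hy, fun _ h' => absurd hl h'⟩
      · by_cases hl0 : l = W.i₀
        · exact Eventually.of_forall fun y => ⟨fun h' => absurd h' hl, fun h' => absurd hl0 h'⟩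
        · exact ((W.continuousAt_f h.mem).eventually (W.isClosed_C.isOpen_compl.eventually_mem
            (h.out l hl0 hl))).mono fun y hy => ⟨fun h' => absurd h' hl, fun _ _ => hy⟩
    filter_upwards [hord, hl] with y hy hy' h0 hb l hl0 hC
    by_cases hlΛ : l ∈ Λ
    · exact hb (((hy l hlΛ).1 h0).1.1 (((hy' l).1 hlΛ).1 hC))
    · exact (hy' l).2 hl0 hlΛ hC
  have hev : ∀ᶠ v in 𝓝 (0 : C2), v ∈ K.P.target ∧
      ((W.ρ₀ (W.f₀ (K.P.symm v)) = 0 → ρ j (W.f j (K.P.symm v)) ≠ 0 →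
        ∀ l, l ≠ W.i₀ → W.f l (K.P.symm v) ∉ W.C) ∧
      (K.P.symm v ∈ W.piece j (ρ j) → W.Cfg j Λ ρ (K.P.symm v))) := by
    refine (K.P.open_target.eventually_mem K.zero_mem).and ?_
    exact (K.P.symm.continuousAt K.zero_mem).eventually (p := fun y =>
      (W.ρ₀ (W.f₀ y) = 0 → ρ j (W.f j y) ≠ 0 → ∀ l, l ≠ W.i₀ → W.f l y ∉ W.C) ∧
      (y ∈ W.piece j (ρ j) → W.Cfg j Λ ρ y)) (by rw [K.symm_zero]; exact hno.and h.eventually)
  rw [show (0 : C2) = ((0 : ℂ), (0 : ℂ)) from rfl] at hev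
  obtain ⟨O₁, hO₁, O₂, hO₂, hO⟩ := mem_nhds_prod_iff.1 hev
  obtain ⟨s, hs, hsO⟩ := exists_sqr_subset (inter_mem hO₁ hO₂)
  have hbox : ∀ z ∈ sqr s, ∀ w ∈ sqr s, (z, w) ∈ K.P.target ∧
      W.ρ₀ (W.f₀ (K.P.symm (z, w))) = z.re ∧ ρ j (W.f j (K.P.symm (z, w))) = w.re ∧
      (z.re = 0 → w.re ≠ 0 → ∀ l, l ≠ W.i₀ → W.f l (K.P.symm (z, w)) ∉ W.C) ∧
      (z.re = 0 → w.re = 0 → W.Cfg j Λ ρ (K.P.symm (z, w))) := by
    intro z hz w hw
    obtain ⟨h1, h2, h3⟩ := hO (mk_mem_prod (hsO hz).1 (hsO hw).2)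
    have hs' := K.P.map_target h1
    have e1 : W.ρ₀ (W.f₀ (K.P.symm (z, w))) = z.re := by
      rw [← K.re_fst hs', K.P.right_inv h1]
    have e2 : ρ j (W.f j (K.P.symm (z, w))) = w.re := by
      rw [← K.re_snd hs', K.P.right_inv h1]
    exact ⟨h1, e1, e2, fun a b => h2 (e1.trans a) (e2.trans_ne b),
      fun a b => h3 ⟨e1.trans a, e2.trans b⟩⟩
  -- a filled point near `x`
  have hnb : K.P.source ∩ K.P ⁻¹' (sqr s ×ˢ sqr s) ∈ 𝓝 x :=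
    (K.P.isOpen_inter_preimage ((isOpen_sqr s).prod (isOpen_sqr s))).mem_nhds
      ⟨K.self_mem, by rw [mem_preimage, K.self_eq]; exact ⟨zero_mem_sqr hs, zero_mem_sqr hs⟩⟩
  obtain ⟨p, ⟨hps, hpz, hpw⟩, ⟨-, hp0⟩, hpg⟩ :=
    mem_closure_iff_nhds.1 (h.bd.self_of_nhds h.mem_piece).1 _ hnb
  set w₀ := (K.P p).2
  set α₀ := (K.P p).1.im
  have hre0 : (K.P p).1.re = 0 := by rw [K.re_fst hps]; exact hp0
  have hz₀ : (((α₀ : ℝ) : ℂ) * I) = (K.P p).1 := by apply Complex.ext <;> simp [α₀, hre0]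
  have hw₀ : w₀.re ≠ 0 := fun h0 =>
    ((hbox _ hpz _ hpw).2.2.2.2 hre0 h0).bd.self_of_nhds
      ⟨(hbox _ hpz _ hpw).2.1.trans hre0, (hbox _ hpz _ hpw).2.2.1.trans h0⟩ |>.2
      (by rw [show K.P.symm ((K.P p).1, (K.P p).2) = p from K.P.left_inv hps]; exact hpg)
  obtain ⟨sgn, hsgn, hsw⟩ : ∃ sgn : ℝ, (sgn = 1 ∨ sgn = -1) ∧ 0 < sgn * w₀.re := by
    rcases hw₀.lt_or_gt with h' | h'
    exacts [⟨-1, Or.inr rfl, by linarith⟩, ⟨1, Or.inl rfl, by linarith⟩]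
  set H : Set ℂ := sqr s ∩ {w | 0 < sgn * w.re} with hH
  have hHc : IsPreconnected H :=
    ((convex_sqr s).inter ((convex_Ioi (0 : ℝ)).is_linear_preimage
      (sgn • reLm).isLinear)).isPreconnected
  have hHo : IsOpen H :=
    (isOpen_sqr s).inter (isOpen_lt continuous_const (continuous_const.mul continuous_re))
  set J : Set ℝ := {α | |α| < s ∧ K.P.symm ((α : ℂ) * I, w₀) ∈ W.good}
  have hsq : ∀ {α : ℝ}, |α| < s → ((α : ℂ) * I) ∈ sqr s := fun hα =>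
    ⟨by simpa using hs, by simpa using hα⟩
  have hαc : ∀ w ∈ sqr s, ∀ α : ℝ, |α| < s →
      ContinuousAt (fun α : ℝ => K.P.symm ((α : ℂ) * I, w)) α := fun w hw α hα =>
    ContinuousAt.comp (g := K.P.symm) (f := fun α : ℝ => ((α : ℂ) * I, w))
      (K.P.symm.continuousAt (hbox _ (hsq hα) _ hw).1) (by fun_prop)
  have hJo : IsOpen J := by
    refine isOpen_iff_mem_nhds.2 fun α hα => ?_
    filter_upwards [(isOpen_lt (f := fun β : ℝ => |β|) continuous_abs continuous_const).mem_nhds (x := α) hα.1,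
      (hαc w₀ hpw α hα.1).preimage_mem_nhds (W.isOpen_good.mem_nhds hα.2)] with β h1 h2
    exact ⟨h1, h2⟩
  have hα₀ : α₀ ∈ J := ⟨hpz.2, by rw [hz₀]; rw [K.P.left_inv hps]; exact hpg⟩
  -- the whole side is filled
  have hside : ∀ α ∈ J, ∀ w ∈ H, K.P.symm ((α : ℂ) * I, w) ∈ W.good := by
    rintro α ⟨hα, hαg⟩
    set k : ℂ → C2 := fun w => K.P.symm ((α : ℂ) * I, w)
    have hkc : ∀ w ∈ sqr s, ContinuousAt k w := fun w hw =>
      ContinuousAt.comp (g := K.P.symm) (f := fun w : ℂ => ((α : ℂ) * I, w))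
        (K.P.symm.continuousAt (hbox _ (hsq hα) _ hw).1) (by fun_prop)
    have hA : IsOpen (H ∩ k ⁻¹' W.good) := (continuousOn_of_forall_continuousAt fun w hw =>
      hkc w hw.1).isOpen_inter_preimage hHo W.isOpen_good
    have := eq_of_relclopen hHc hA ?_ ⟨w₀, ⟨hpw, hsw⟩, ⟨hpw, hsw⟩, hαg⟩
    · exact fun w hw => (this hw).2
    rintro w ⟨hwA, hw⟩
    refine ⟨hw, ?_⟩
    obtain ⟨ht, e1, -, hno', -⟩ := hbox _ (hsq hα) w hw.1
    refine W.mem_good_of_leaf (K.source_sub (K.P.map_target ht)) (by rw [e1]; simp)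
      (hno' (by simp) fun h0 => by simpa [h0] using hw.2) ?_
    have hf : ∃ᶠ w' in 𝓝 w,
        W.chart.e.symm (W.f₀ (K.P.symm ((α : ℂ) * I, w)), (k w').1) ∈ W.good := by
      refine (mem_closure_iff_frequently.1 hwA).mono fun w' hw' => ?_
      have ht' := (hbox _ (hsq hα) w' hw'.1.1).1
      rw [(K.f₀_symm ht).2, ← (K.f₀_symm ht').2,
        W.symm_f₀ (K.source_sub (K.P.map_target ht'))]
      exact hw'.2
    exact (hkc w hw.1).fst.tendsto.frequently hf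
  -- the new point
  obtain ⟨ht, -, -, -, hcfg⟩ := hbox _ (hsq hα₀.1) 0 (zero_mem_sqr hs)
  have hcfg' := hcfg (by simp) (by simp)
  set x' := K.P.symm ((α₀ : ℂ) * I, 0)
  have hxs := K.P.map_target ht
  have hev' : ∀ᶠ y in 𝓝 x', y ∈ K.P.source ∧ K.P y ∈ sqr s ×ˢ sqr s ∧ (K.P y).1.im ∈ J := by
    have hc := K.P.continuousAt hxs
    have he : K.P x' = ((α₀ : ℂ) * I, 0) := K.P.right_inv ht
    refine (K.P.open_source.eventually_mem hxs).and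
      ((hc.eventually (((isOpen_sqr s).prod (isOpen_sqr s)).eventually_mem ?_)).and
        ((Complex.continuous_im.continuousAt.comp hc.fst).eventually (hJo.eventually_mem ?_)))
    · rw [he]; exact mk_mem_prod (hsq hα₀.1) (zero_mem_sqr hs)
    · show (K.P x').1.im ∈ J
      rw [he]; simpa using hα₀
  have hgood : ∀ᶠ y in 𝓝 x', W.ρ₀ (W.f₀ y) = 0 → 0 < sgn * ρ j (W.f j y) → y ∈ W.good := by
    filter_upwards [hev'] with y ⟨hy, hyb, hyJ⟩ h0 hb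
    have hz : (((K.P y).1.im : ℝ) : ℂ) * I = (K.P y).1 := by
      apply Complex.ext <;> simp [K.re_fst hy, h0]
    have := hside _ hyJ (K.P y).2 ⟨hyb.2, by show 0 < sgn * (K.P y).2.re; rwa [K.re_snd hy]⟩
    rwa [hz, K.P.left_inv hy] at this
  rcases hsgn with rfl | rfl
  · exact ⟨ρ, x', hcfg', by simpa using hgood⟩
  · exact ⟨_, x', hcfg'.neg, by simpa using hgood⟩

/-- The frontier part of a half wall. -/
def Web.wall (W : Web Ω.U) (l : Fin W.d) : Set C2 :=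
  {p | p ∈ frontier Ω.U ∧ 0 < W.ρ₀ (W.f₀ p) ∧ W.f l p ∈ W.C}

/-- A point of the piece where the half walls are active everywhere or nowhere. -/
theorem Web.exists_generic (W : Web Ω.U) :
    ∃ (j : Fin W.d) (Λ : Finset (Fin W.d)) (ρ : Fin W.d → ℂ → ℝ) (x : C2), W.Cfg j Λ ρ x ∧
      (∀ᶠ y in 𝓝 x, W.ρ₀ (W.f₀ y) = 0 → 0 < ρ j (W.f j y) → y ∈ W.good) ∧
      ∀ l ∈ Λ, (∀ᶠ y in 𝓝 x, y ∈ W.piece j (ρ j) → y ∈ closure (W.wall l)) ∨
        x ∉ closure (W.wall l) := by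
  obtain ⟨j, Λ, ρ₁, x₁, h₁⟩ := W.exists_cfg
  obtain ⟨ρ, x₂, h₂, hside⟩ := h₁.exists_side
  obtain ⟨N, hN, hNo, hxN⟩ :=
    _root_.eventually_nhds_iff.1 (h₂.eventually.and hside.eventually_nhds)
  obtain ⟨O, hO, ⟨x, ⟨hxp, hxN'⟩, hxO⟩, hc⟩ := exists_piece_const (s := Λ)
    (F := fun l => closure (W.wall l)) (fun l _ => isClosed_closure)
    (S := W.piece j (ρ j) ∩ N) ⟨x₂, h₂.mem_piece, hxN⟩
  refine ⟨j, Λ, ρ, x, (hN x hxN').1 hxp, (hN x hxN').2, fun l hl => ?_⟩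
  refine (hc l hl).imp (fun hsub => ?_) fun hd =>
    Set.disjoint_left.1 hd (show x ∈ (W.piece j (ρ j) ∩ N) ∩ O from ⟨⟨hxp, hxN'⟩, hxO⟩)
  filter_upwards [hNo.eventually_mem hxN', hO.eventually_mem hxO] with y h1 h2 hp
  exact hsub ⟨⟨hp, h1⟩, h2⟩

end

end Vale.Agent.P274.Surface
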