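import Vale.Agent.P274.Surface.Corner.Basic
import Vale.Agent.P274.Surface.Ext

/-!
The filled part of the leaves and arcs in its boundary.
-/

open Filter Metric Set Function Topology Complex

namespace Vale.Agent.P274.Surface

noncomputable section

variable {Ω : Sys} (W : Web Ω.U)

/-- The distinguished function. -/
abbrev Web.f₀ : C2 → ℂ := W.f W.i₀

/-- Points near which one side is in the domain and the face is in the frontier. -/
def Web.good : Set C2 :=
  {p | ∀ᶠ q in 𝓝 p, (0 < W.ρ₀ (W.f₀ q) → q ∈ Ω.U) ∧ (W.ρ₀ (W.f₀ q) = 0 → q ∈ frontier Ω.U)}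

/-- The filled part of the face. -/
def Web.fill : Set C2 := {p | p ∈ W.chart.e.source ∧ W.ρ₀ (W.f₀ p) = 0} ∩ W.good

/-- The boundary of the filled part. -/
def Web.bd : Set C2 := closure W.fill ∩ W.goodᶜ

theorem Web.isOpen_good : IsOpen W.good := isOpen_setOfPred_eventually_nhds

theorem Web.isClosed_bd : IsClosed W.bd := isClosed_closure.inter W.isOpen_good.isClosed_compl

theorem Web.fill_subset : W.fill ⊆ frontier Ω.U := fun _ hp =>
  hp.2.self_of_nhds.2 hp.1.2

theorem Web.closure_fill_subset : closure W.fill ⊆ frontier Ω.U :=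
  closure_minimal W.fill_subset isClosed_frontier

theorem Web.symm_spec {b t : ℂ} (h : (b, t) ∈ W.chart.e.target) :
    W.chart.e.symm (b, t) ∈ W.chart.e.source ∧ W.f₀ (W.chart.e.symm (b, t)) = b ∧
      (W.chart.e.symm (b, t)).1 = t := by
  have h1 := W.chart.e.map_target h
  have h2 := W.chart.e.right_inv h
  rw [W.chart_eq _ h1] at h2
  exact ⟨h1, congrArg Prod.fst h2, congrArg Prod.snd h2⟩

theorem Web.f₀_mem {p : C2} (hp : p ∈ W.chart.e.source) :
    W.f₀ p ∈ ball W.b₀ W.rb ∧ p.1 ∈ ball W.c₀ W.r := by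
  have := W.chart.e.map_source hp
  rw [W.target_eq, W.chart_eq p hp] at this
  exact this

theorem Web.symm_f₀ {p : C2} (hp : p ∈ W.chart.e.source) :
    W.chart.e.symm (W.f₀ p, p.1) = p := by
  rw [show (W.f₀ p, p.1) = W.chart.e p from (W.chart_eq p hp).symm]
  exact W.chart.e.left_inv hp

theorem Web.continuousAt_f {j : Fin W.d} {p : C2} (hp : p ∈ W.chart.e.source) :
    ContinuousAt (W.f j) p :=
  (W.diff j).continuousOn.continuousAt (W.isOpen_B.mem_nhds (W.source_sub hp))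

/-- A frontier point covered only by the distinguished family lies on the face. -/
theorem Web.face_of_frontier {q : C2} (hq : q ∈ W.chart.e.source) (hqf : q ∈ frontier Ω.U)
    (hno : ∀ j, j ≠ W.i₀ → W.f j q ∉ W.C) : W.ρ₀ (W.f₀ q) = 0 := by
  obtain ⟨j, hj⟩ := W.cover q ⟨hqf, W.source_sub hq⟩
  rcases eq_or_ne j W.i₀ with rfl | hne
  · exact ((W.C_eq _ (W.f₀_mem hq).1).1).1 hj
  · exact absurd hj (hno j hne)

theorem Web.eventually_not_mem {y : C2} (hy : y ∈ W.chart.e.source)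
    (hno : ∀ j, j ≠ W.i₀ → W.f j y ∉ W.C) :
    ∀ᶠ q in 𝓝 y, q ∈ W.chart.e.source ∧ ∀ j, j ≠ W.i₀ → W.f j q ∉ W.C := by
  refine (W.chart.e.open_source.eventually_mem hy).and (eventually_all.2 fun j => ?_)
  by_cases hj : j = W.i₀
  · exact Eventually.of_forall fun q h => absurd hj h
  · exact ((W.continuousAt_f hy).eventually (W.isClosed_C.isOpen_compl.mem_nhds (hno j hj))).mono
      fun q hq _ => hq

/-- Off the other families, being filled spreads along the leaves. -/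
theorem Web.mem_good_of_leaf {y : C2} (hy : y ∈ W.chart.e.source) (hy0 : W.ρ₀ (W.f₀ y) = 0)
    (hno : ∀ j, j ≠ W.i₀ → W.f j y ∉ W.C)
    (hfr : ∃ᶠ t in 𝓝 y.1, W.chart.e.symm (W.f₀ y, t) ∈ W.good) : y ∈ W.good := by
  obtain ⟨F⟩ := exists_flat W.contDiff₀ hy0 (W.regular₀ _ (W.f₀_mem hy).1)
    (isOpen_ball.mem_nhds (W.f₀_mem hy).1)
  set m : C2 → C2 := fun v => W.chart.e.symm (F.φ.symm v.1, v.2) with hm
  have h0t : (0 : ℂ) ∈ F.φ.target := F.center ▸ F.φ.map_source F.mem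
  have hsymm0 : F.φ.symm 0 = W.f₀ y := by rw [← F.center]; exact F.φ.left_inv F.mem
  have hm0 : m (0, y.1) = y := by simp only [hm, hsymm0]; exact W.symm_f₀ hy
  have hyt : (W.f₀ y, y.1) ∈ W.chart.e.target := by
    rw [W.target_eq]; exact W.f₀_mem hy
  have hc1 : ContinuousAt (fun v : C2 => (F.φ.symm v.1, v.2)) (0, y.1) :=
    (ContinuousAt.comp (g := F.φ.symm) (f := Prod.fst) (x := ((0 : ℂ), y.1)) (F.φ.symm.continuousAt h0t) continuousAt_fst).prodMk continuousAt_snd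
  have hmc : ContinuousAt m (0, y.1) :=
    ContinuousAt.comp (g := W.chart.e.symm) (f := fun v : C2 => (F.φ.symm v.1, v.2))
      (W.chart.e.symm.continuousAt (by simp only [hsymm0]; exact hyt)) hc1
  have hev : ∀ᶠ v in 𝓝 ((0 : ℂ), y.1), v.1 ∈ F.φ.target ∧
      (F.φ.symm v.1, v.2) ∈ W.chart.e.target ∧
      ∀ j, j ≠ W.i₀ → W.f j (m v) ∉ W.C := by
    refine (continuousAt_fst.eventually (F.φ.open_target.eventually_mem h0t)).and
      ((hc1.eventually (W.chart.e.open_target.eventually_mem (by simp only [hsymm0]; exact hyt))).and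
        ((hmc.eventually (hm0.symm ▸ W.eventually_not_mem hy hno)).mono fun v hv => hv.2))
  obtain ⟨O₁, hO₁, O₂, hO₂, hO⟩ := mem_nhds_prod_iff.1 hev
  obtain ⟨s, hs, hsO⟩ := exists_sqr_subset hO₁
  obtain ⟨e, he, heO⟩ := Metric.mem_nhds_iff.1 hO₂
  have hbox : ∀ z ∈ sqr s, ∀ t ∈ ball y.1 e, z ∈ F.φ.target ∧
      (F.φ.symm z, t) ∈ W.chart.e.target ∧ m (z, t) ∈ W.chart.e.source ∧
      W.ρ₀ (W.f₀ (m (z, t))) = z.re ∧ (∀ j, j ≠ W.i₀ → W.f j (m (z, t)) ∉ W.C) := by
    intro z hz t ht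
    obtain ⟨h1, h2, h3⟩ := hO (mk_mem_prod (hsO hz) (heO ht))
    refine ⟨h1, h2, (W.symm_spec h2).1, ?_, h3⟩
    simp only [hm, (W.symm_spec h2).2.1]
    exact F.symm_re h1
  have hcont : ∀ z ∈ sqr s, ∀ t ∈ ball y.1 e, ContinuousAt m (z, t) := fun z hz t ht =>
    ContinuousAt.comp (g := W.chart.e.symm) (f := fun v : C2 => (F.φ.symm v.1, v.2))
      (W.chart.e.symm.continuousAt (hbox z hz t ht).2.1)
      (((F.φ.symm.continuousAt (hbox z hz t ht).1).comp continuousAt_fst).prodMk continuousAt_snd)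
  obtain ⟨t₁, ht₁g, ht₁⟩ := (hfr.and_eventually (ball_mem_nhds y.1 he)).exists
  have hm1 : m (0, t₁) ∈ W.good := by simp only [hm, hsymm0]; exact ht₁g
  -- the upper half of the box
  set T := m '' ((sqr s ∩ {z | 0 < z.re}) ×ˢ ball y.1 e) with hT
  have hTc : IsPreconnected T := ((convex_sqr_pos s).isPreconnected.prod
    (convex_ball _ _).isPreconnected).image _ fun v hv =>
      (hcont _ hv.1.1 _ hv.2).continuousWithinAt
  have hTf : ∀ p ∈ T, p ∉ frontier Ω.U := by
    rintro _ ⟨⟨z, t⟩, ⟨⟨hz, hzp⟩, ht⟩, rfl⟩ hf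
    obtain ⟨-, -, h3, h4, h5⟩ := hbox z hz t ht
    have := W.face_of_frontier h3 hf h5
    rw [h4] at this
    exact hzp.ne' this
  have hline : Tendsto (fun δ : ℝ => m ((δ : ℂ), t₁)) (𝓝 0) (𝓝 (m (0, t₁))) :=
    (hcont 0 (zero_mem_sqr hs) t₁ ht₁).tendsto.comp
      (((Complex.continuous_ofReal.tendsto' 0 0 (by simp)).prodMk_nhds tendsto_const_nhds))
  have hTU : T ⊆ Ω.U := by
    obtain ⟨δ, ⟨hδ, hδs⟩, hδg⟩ := (((eventually_mem_nhdsWithin (s := Ioi (0 : ℝ)) (a := 0)).and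
      (nhdsWithin_le_nhds (Iio_mem_nhds hs))).and
        (nhdsWithin_le_nhds (hline.eventually hm1))).exists
    have hδ' : (0 : ℝ) < δ := hδ
    have hz : (δ : ℂ) ∈ sqr s := ⟨by simpa [abs_of_pos hδ'] using hδs, by simpa using hs⟩
    have hU : m ((δ : ℂ), t₁) ∈ Ω.U := hδg.1 (by
      rw [(hbox _ hz t₁ ht₁).2.2.2.1]; simpa using hδ')
    exact subset_of_frontier_free Ω.isOpen_U hTc hTf
      ⟨_, mem_image_of_mem _ (mk_mem_prod ⟨hz, by simpa using hδ'⟩ ht₁), hU⟩
  -- leaves near `y`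
  have hline' : ContinuousAt (fun z : ℂ => m (z, t₁)) 0 :=
    ContinuousAt.comp (g := m) (f := fun z : ℂ => (z, t₁)) (hcont 0 (zero_mem_sqr hs) t₁ ht₁)
      (continuousAt_id.prodMk continuousAt_const)
  obtain ⟨s', hs', hs'sub⟩ := exists_sqr_subset
    (inter_mem ((isOpen_sqr s).mem_nhds (zero_mem_sqr hs))
      (hline'.preimage_mem_nhds (W.isOpen_good.mem_nhds hm1)))
  have hleaf : ∀ z ∈ sqr s', z.re = 0 → ∀ t ∈ ball y.1 e, m (z, t) ∈ frontier Ω.U := by
    intro z hz hz0 t ht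
    obtain ⟨hzs, hzg⟩ := hs'sub hz
    have hρ : W.ρ₀ (F.φ.symm z) = 0 := by rw [F.symm_re (hbox z hzs t ht).1]; exact hz0
    have hopen := Ω.leaf_open W.chart ((W.contDiff₀.differentiable (by norm_num)) _) hρ
      (W.regular₀ _ (F.sub (F.φ.map_target (hbox z hzs t ht).1))) (T := ball y.1 e) isOpen_ball
      (fun t' ht' => (hbox z hzs t' ht').2.1) ?_
    · have hsub := eq_of_relclopen (convex_ball y.1 e).isPreconnected hopen ?_
        ⟨t₁, ht₁, ht₁, hzg.self_of_nhds.2 (by rw [(hbox z hzs t₁ ht₁).2.2.2.1]; exact hz0)⟩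
      · exact (hsub ht).2
      · rintro t' ⟨ht'A, ht'⟩
        refine ⟨ht', ?_⟩
        have hc : ContinuousAt (fun t'' => m (z, t'')) t' :=
          ContinuousAt.comp (g := m) (f := fun t'' : ℂ => (z, t'')) (hcont z hzs t' ht')
            (continuousAt_const.prodMk continuousAt_id)
        exact closure_minimal (by rintro _ ⟨t'', h, rfl⟩; exact h.2) isClosed_frontier
          (hc.continuousWithinAt.mem_closure_image ht'A)
    · intro t' ht'
      have hzsrc := F.φ.map_target (hbox z hzs t' ht').1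
      filter_upwards [(continuousAt_fst.eventually (F.φ.open_source.eventually_mem hzsrc) :
          ∀ᶠ v : ℂ × ℂ in 𝓝 (F.φ.symm z, t'), v.1 ∈ F.φ.source),
        (continuousAt_snd.eventually (isOpen_ball.eventually_mem ht') :
          ∀ᶠ v : ℂ × ℂ in 𝓝 (F.φ.symm z, t'), v.2 ∈ ball y.1 e),
        (ContinuousAt.comp (g := F.φ) (f := Prod.fst) (x := (F.φ.symm z, t'))
          (F.φ.continuousAt hzsrc) continuousAt_fst).eventually
          ((isOpen_sqr s).eventually_mem (show F.φ (F.φ.symm z) ∈ sqr s by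
            rw [F.φ.right_inv (hbox z hzs t' ht').1]; exact hzs))]
        with v hv1 hv2 hv3 hpos
      refine hTU ⟨(F.φ v.1, v.2), ⟨⟨hv3, ?_⟩, hv2⟩, ?_⟩
      · show 0 < (F.φ v.1).re
        rw [F.re_eq _ hv1]; exact hpos
      · show W.chart.e.symm (F.φ.symm (F.φ v.1), v.2) = W.chart.e.symm v
        rw [F.φ.left_inv hv1]
  have hf0c : ContinuousAt W.f₀ y := W.continuousAt_f hy
  show ∀ᶠ q in 𝓝 y, _
  filter_upwards [W.chart.e.open_source.eventually_mem hy,
    hf0c.eventually (F.φ.open_source.eventually_mem F.mem),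
    ((F.φ.continuousAt F.mem).comp hf0c).eventually ((isOpen_sqr s').eventually_mem
      (show (F.φ ∘ W.f₀) y ∈ sqr s' by simp [F.center, zero_mem_sqr hs'])),
    continuousAt_fst.eventually (isOpen_ball.eventually_mem (mem_ball_self he))] with q hq hq1 hq2 hq3
  have hqm : m (F.φ (W.f₀ q), q.1) = q := by
    simp only [hm, F.φ.left_inv hq1]; exact W.symm_f₀ hq
  have hre := F.re_eq _ hq1
  refine ⟨fun hpos => ?_, fun h0 => ?_⟩
  · refine hTU ⟨(F.φ (W.f₀ q), q.1), ⟨⟨(hs'sub hq2).1, ?_⟩, hq3⟩, hqm⟩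
    show 0 < (F.φ (W.f₀ q)).re
    rw [hre]; exact hpos
  · have : m (F.φ (W.f₀ q), q.1) ∈ frontier Ω.U := hleaf _ hq2 (hre.trans h0) _ hq3
    rwa [hqm] at this

/-- An arc in a leaf inside the boundary of the filled part, with its coordinate. -/
theorem Web.exists_arc {b : ℂ} (hb : b ∈ ball W.b₀ W.rb) (hb0 : W.ρ₀ b = 0)
    (hc₀ : W.chart.e.symm (b, W.c₀) ∈ W.good) {t₁ : ℂ} (ht₁ : t₁ ∈ ball W.c₀ W.r)
    (hext : W.chart.e.symm (b, t₁) ∉ closure Ω.U) :
    ∃ j, j ≠ W.i₀ ∧ ∃ (τ : ℝ → C2) (η : ℝ), 0 < η ∧ ContinuousOn τ (Icc (-η) η) ∧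
      InjOn τ (Icc (-η) η) ∧ ∀ β ∈ Icc (-η) η, τ β ∈ W.chart.e.source ∧ W.f₀ (τ β) = b ∧
        τ β ∈ W.bd ∧ W.f j (τ β) ∈ W.C ∧ W.f j (τ β) ∉ W.X := by
  classical
  set D := ball W.c₀ W.r
  set γ : ℂ → C2 := fun t => W.chart.e.symm (b, t) with hγ
  have htar : ∀ t ∈ D, (b, t) ∈ W.chart.e.target := fun t ht => by rw [W.target_eq]; exact ⟨hb, ht⟩
  have hγc : ∀ t ∈ D, ContinuousAt γ t := fun t ht =>
    ContinuousAt.comp (g := W.chart.e.symm) (f := fun t : ℂ => (b, t))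
      (W.chart.e.symm.continuousAt (htar t ht)) (continuousAt_const.prodMk continuousAt_id)
  set A := D ∩ γ ⁻¹' W.good with hA
  have hAo : IsOpen A := (continuousOn_of_forall_continuousAt hγc).isOpen_inter_preimage
    isOpen_ball W.isOpen_good
  have hAfill : γ '' A ⊆ W.fill := by
    rintro _ ⟨t, ⟨ht, htg⟩, rfl⟩
    obtain ⟨h1, h2, -⟩ := W.symm_spec (htar t ht)
    exact ⟨⟨h1, by rw [h2]; exact hb0⟩, htg⟩
  set G := closure A with hG
  have hGmem : ∀ t ∈ D, t ∈ G → γ t ∈ closure W.fill := fun t ht htG =>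
    closure_mono hAfill ((hγc t ht).continuousWithinAt.mem_closure_image htG)
  set S := {t | t ∈ D ∧ t ∈ G ∧ t ∉ interior G} with hS
  have hcD : W.c₀ ∈ D := mem_ball_self W.r_pos
  have hAint : A ⊆ interior G := interior_maximal subset_closure hAo
  have hSne : S.Nonempty := by
    by_contra hne
    have hsub : D ⊆ interior G := (convex_ball _ _).isPreconnected.subset_of_closure_inter_subset
      isOpen_interior ⟨W.c₀, hcD, hAint ⟨hcD, hc₀⟩⟩ fun t ht => by
        by_contra h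
        exact hne ⟨t, ht.2, closure_minimal interior_subset isClosed_closure ht.1, h⟩
    exact hext (frontier_subset_closure
      (W.closure_fill_subset (hGmem t₁ ht₁ (interior_subset (hsub ht₁)))))
  have hSgood : ∀ t ∈ S, γ t ∉ W.good := fun t ht hg => ht.2.2 (hAint ⟨ht.1, hg⟩)
  have hSbd : ∀ t ∈ S, γ t ∈ W.bd := fun t ht => ⟨hGmem t ht.1 ht.2.1, hSgood t ht⟩
  have hScov : ∀ t ∈ S, ∃ j, j ≠ W.i₀ ∧ W.f j (γ t) ∈ W.C := by
    intro t ht
    by_contra! hno
    obtain ⟨h1, h2, h3⟩ := W.symm_spec (htar t ht.1)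
    refine hSgood t ht (W.mem_good_of_leaf h1 (by rw [h2]; exact hb0) hno ?_)
    simp only [hγ, h2, h3]
    exact (mem_closure_iff_frequently.1 ht.2.1).mono fun t' ht' => ht'.2
  -- one family and one kind of value on a piece
  have hgc : ∀ j, ∀ t ∈ D, ContinuousAt (fun t => W.f j (γ t)) t := fun j t ht =>
    ContinuousAt.comp (g := W.f j) (f := γ) (W.continuousAt_f (W.symm_spec (htar t ht)).1) (hγc t ht)
  set F : Fin W.d → Option ℂ → Set ℂ := fun j o =>
    closure (D ∩ (fun t => W.f j (γ t)) ⁻¹' (o.elim W.C fun ξ => {ξ})) with hF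
  have hFmem : ∀ j o, ∀ t ∈ D, t ∈ F j o → W.f j (γ t) ∈ o.elim W.C fun ξ => {ξ} := by
    intro j o t ht htF
    have h1 := ((hgc j t ht).continuousWithinAt.mem_closure_image htF)
    refine closure_minimal (image_subset_iff.2 inter_subset_right) ?_ h1
    cases o
    exacts [W.isClosed_C, isClosed_singleton]
  obtain ⟨O, hO, ⟨t', ht'⟩, hconst⟩ := exists_piece_const
    (s := (Finset.univ : Finset (Fin W.d)) ×ˢ (insert none (W.finite_X.toFinset.image some)))
    (F := fun q => F q.1 q.2) (fun q _ => isClosed_closure) hSne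
  obtain ⟨j, hj, hjC⟩ := hScov t' ht'.1
  have hall : S ∩ O ⊆ F j none := (hconst (j, none) (by simp)).resolve_right fun hd =>
    Set.disjoint_left.1 hd ht' (subset_closure ⟨ht'.1.1, hjC⟩)
  -- the arc through a point of the piece
  have key : ∀ (ρ : ℂ → ℝ), ContDiff ℝ 1 ρ → ρ (W.f j (γ t')) = 0 →
      fderiv ℝ ρ (W.f j (γ t')) ≠ 0 →
      (∀ᶠ t in 𝓝 t', t ∈ S → ρ (W.f j (γ t)) = 0) →
      ∃ (τ : ℝ → C2) (η : ℝ), 0 < η ∧ ContinuousOn τ (Icc (-η) η) ∧
        InjOn (fun β => W.f j (τ β)) (Icc (-η) η) ∧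
        ∀ β ∈ Icc (-η) η, ∃ t ∈ S ∩ O, τ β = γ t := by
    intro ρ hρ hρ0 hρd hzero
    obtain ⟨hy, hyb, hyt⟩ := W.symm_spec (htar t' ht'.1.1)
    set y := γ t'
    obtain ⟨c, hyc, hcsub, hce⟩ := exists_hchart W.chart.e.open_source
      ((W.diff W.i₀).mono W.source_sub) ((W.diff j).mono W.source_sub)
      (fun p hp => W.transversal _ _ hj.symm p (W.source_sub hp)) hy
    obtain ⟨Fl'⟩ := exists_flat hρ hρ0 hρd univ_mem
    have h0t : (0 : ℂ) ∈ Fl'.φ.target := Fl'.center ▸ Fl'.φ.map_source Fl'.mem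
    have hs0 : Fl'.φ.symm 0 = W.f j y := by rw [← Fl'.center]; exact Fl'.φ.left_inv Fl'.mem
    set k : ℂ → C2 := fun z => c.e.symm (b, Fl'.φ.symm z) with hk
    have hcy : c.e y = (b, W.f j y) := by rw [hce]; exact Prod.ext hyb rfl
    have hyt' : (b, Fl'.φ.symm 0) ∈ c.e.target := by rw [hs0, ← hcy]; exact c.e.map_source hyc
    have hkc0 : ContinuousAt (fun z : ℂ => (b, Fl'.φ.symm z)) 0 :=
      continuousAt_const.prodMk (Fl'.φ.symm.continuousAt h0t)
    have hk0 : k 0 = y := by simp only [hk, hs0, ← hcy]; exact c.e.left_inv hyc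
    have hkc : ContinuousAt k 0 :=
      ContinuousAt.comp (g := c.e.symm) (f := fun z : ℂ => (b, Fl'.φ.symm z))
        (c.e.symm.continuousAt hyt') hkc0
    have hk1 : ContinuousAt (fun z => (k z).1) 0 := hkc.fst
    have hev : ∀ᶠ z in 𝓝 (0 : ℂ), (z ∈ Fl'.φ.target ∧ (b, Fl'.φ.symm z) ∈ c.e.target) ∧
        ((k z).1 ∈ D ∩ O ∧ ((k z).1 ∈ S → ρ (W.f j (γ (k z).1)) = 0)) := by
      refine ((Fl'.φ.open_target.eventually_mem h0t).and
        (hkc0.eventually (c.e.open_target.eventually_mem hyt'))).and ?_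
      have h1 : (k 0).1 = t' := by rw [hk0]; exact hyt
      refine hk1.eventually (p := fun t => t ∈ D ∩ O ∧ (t ∈ S → ρ (W.f j (γ t)) = 0)) ?_
      show ∀ᶠ t in 𝓝 (k 0).1, t ∈ D ∩ O ∧ (t ∈ S → ρ (W.f j (γ t)) = 0)
      rw [h1]
      exact ((isOpen_ball.inter hO).eventually_mem ⟨ht'.1.1, ht'.2⟩).and hzero
    obtain ⟨s, hs, hsub⟩ := exists_sqr_subset hev
    have hbox : ∀ z ∈ sqr s, (k z).1 ∈ D ∩ O ∧ γ (k z).1 = k z ∧ W.f j (k z) = Fl'.φ.symm z ∧
        ((k z).1 ∈ S → z.re = 0) ∧ ContinuousAt (fun z => (k z).1) z := by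
      intro z hz
      obtain ⟨⟨hz1, hz2⟩, hz3, hz4⟩ := hsub hz
      have hsrc := c.e.map_target hz2
      have he : c.e (k z) = (b, Fl'.φ.symm z) := c.e.right_inv hz2
      rw [hce, Prod.mk.injEq] at he
      have hγk : γ (k z).1 = k z := by
        simp only [hγ]; rw [← he.1]; exact W.symm_f₀ (hcsub hsrc)
      refine ⟨hz3, hγk, he.2, fun hzS => ?_, ?_⟩
      · have := hz4 hzS
        rwa [hγk, he.2, Fl'.symm_re hz1] at this
      · exact (ContinuousAt.comp (g := c.e.symm) (f := fun z : ℂ => (b, Fl'.φ.symm z))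
          (c.e.symm.continuousAt hz2)
          (continuousAt_const.prodMk (Fl'.φ.symm.continuousAt hz1))).fst
    -- each side is inside or outside
    have hside : ∀ H : Set ℂ, IsPreconnected H → H ⊆ sqr s → (∀ z ∈ H, z.re ≠ 0) →
        (∀ z ∈ H, (k z).1 ∈ interior G) ∨ ∀ z ∈ H, (k z).1 ∉ G := by
      intro H hH hHs hre
      have hHc : IsPreconnected ((fun z => (k z).1) '' H) :=
        hH.image _ fun z hz => (hbox z (hHs hz)).2.2.2.2.continuousWithinAt
      by_cases hex : ∃ z ∈ H, (k z).1 ∈ interior G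
      · left
        obtain ⟨z₀, hz₀, hz₀i⟩ := hex
        have := hHc.subset_of_closure_inter_subset isOpen_interior
          ⟨_, mem_image_of_mem _ hz₀, hz₀i⟩ (by
            rintro t ⟨htcl, z, hz, rfl⟩
            by_contra h
            exact hre z hz ((hbox z (hHs hz)).2.2.2.1
              ⟨(hbox z (hHs hz)).1.1, closure_minimal interior_subset isClosed_closure htcl, h⟩))
        exact fun z hz => this (mem_image_of_mem _ hz)
      · push Not at hex
        exact Or.inr fun z hz hzG => hre z hz ((hbox z (hHs hz)).2.2.2.1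
          ⟨(hbox z (hHs hz)).1.1, hzG, hex z hz⟩)
    -- near `t'` the leaf is the box
    have hnear : ∀ᶠ t in 𝓝 t', ∃ z ∈ sqr s, (k z).1 = t := by
      have hg : ContinuousAt (fun t => W.f j (γ t)) t' := hgc j t' ht'.1.1
      filter_upwards [(isOpen_ball.eventually_mem ht'.1.1),
        (hγc t' ht'.1.1).eventually (c.e.open_source.eventually_mem hyc),
        hg.eventually (Fl'.φ.open_source.eventually_mem Fl'.mem),
        (ContinuousAt.comp (g := Fl'.φ) (f := fun t => W.f j (γ t))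
          (Fl'.φ.continuousAt Fl'.mem) hg).eventually ((isOpen_sqr s).eventually_mem
          (show Fl'.φ (W.f j (γ t')) ∈ sqr s by rw [Fl'.center]; exact zero_mem_sqr hs))]
        with t htD h1 h2 h3
      refine ⟨_, h3, ?_⟩
      have h4 : c.e (γ t) = (b, W.f j (γ t)) := by
        rw [hce]; exact Prod.ext (W.symm_spec (htar t htD)).2.1 rfl
      simp only [hk, Function.comp_apply, Fl'.φ.left_inv h2, ← h4, c.e.left_inv h1]
      exact (W.symm_spec (htar t htD)).2.2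
    obtain ⟨N, hN, hNo, htN⟩ := _root_.eventually_nhds_iff.1 hnear
    have hoff : ∀ V : Set ℂ, IsOpen V → (V ∩ N).Nonempty →
        ∃ z ∈ sqr s, z.re ≠ 0 ∧ (k z).1 ∈ V := by
      rintro V hV ⟨t, htV, htN'⟩
      obtain ⟨z, hz, hzt⟩ := hN t htN'
      have hcz := (hbox z hz).2.2.2.2
      obtain ⟨δ, hδ, hsubδ⟩ := Metric.mem_nhds_iff.1
        (inter_mem ((isOpen_sqr s).mem_nhds hz)
          (hcz.preimage_mem_nhds (hV.mem_nhds (show (k z).1 ∈ V by rw [hzt]; exact htV))))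
      by_cases h0 : z.re = 0
      · have hm : z + ((δ / 2 : ℝ) : ℂ) ∈ ball z δ := by
          rw [mem_ball, dist_self_add_left, Complex.norm_real, Real.norm_eq_abs,
            abs_of_pos (half_pos hδ)]
          linarith
        exact ⟨_, (hsubδ hm).1, by simp [h0, hδ.ne'], (hsubδ hm).2⟩
      · exact ⟨z, hz, h0, by rw [hzt]; exact htV⟩
    obtain ⟨z₁, hz₁, hz₁r, hz₁A⟩ := hoff A hAo (by
      obtain ⟨t, htN', htA⟩ := mem_closure_iff_nhds.1 ht'.1.2.1 N (hNo.mem_nhds htN)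
      exact ⟨t, htA, htN'⟩)
    obtain ⟨z₂, hz₂, hz₂r, hz₂G⟩ := hoff Gᶜ isClosed_closure.isOpen_compl (by
      by_contra hne
      exact ht'.1.2.2 (mem_interior.2 ⟨N, fun t ht => by_contra fun h => hne ⟨t, h, ht⟩, hNo, htN⟩))
    have hP := hside _ (convex_sqr_pos s).isPreconnected inter_subset_left fun z hz => hz.2.ne'
    have hM := hside _ (convex_sqr_neg s).isPreconnected inter_subset_left fun z hz => hz.2.ne
    have harc : ∀ β : ℝ, |β| < s → (k (β * I)).1 ∈ S := by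
      intro β hβ
      have hz : ((β : ℂ) * I) ∈ sqr s := ⟨by simpa using hs, by simpa using hβ⟩
      have hcz := (hbox _ hz).2.2.2.2
      have hlim : ∀ σ : ℝ, Tendsto (fun δ : ℝ => (k ((σ * δ : ℝ) + (β : ℂ) * I)).1)
          (𝓝[>] 0) (𝓝 (k ((β : ℂ) * I)).1) := fun σ => by
        refine (hcz.tendsto.comp ?_).mono_left nhdsWithin_le_nhds
        have : Continuous fun δ : ℝ => ((σ * δ : ℝ) : ℂ) + (β : ℂ) * I := by fun_prop
        simpa using this.tendsto 0
      have hmem : ∀ σ : ℝ, |σ| = 1 → ∀ᶠ δ : ℝ in 𝓝[>] 0, 0 < δ ∧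
          ((σ * δ : ℝ) : ℂ) + (β : ℂ) * I ∈ sqr s := fun σ hσ => by
        filter_upwards [eventually_mem_nhdsWithin, nhdsWithin_le_nhds (Iio_mem_nhds hs)]
          with δ hδ hδs
        have hδ' : (0 : ℝ) < δ := hδ
        refine ⟨hδ', ?_, by simpa using hβ⟩
        simpa [abs_mul, hσ, abs_of_pos hδ'] using hδs
      have hp : ∀ᶠ δ : ℝ in 𝓝[>] 0,
          ((1 * δ : ℝ) : ℂ) + (β : ℂ) * I ∈ sqr s ∩ {z | 0 < z.re} :=
        (hmem 1 (by simp)).mono fun δ h => ⟨h.2, by simpa using h.1⟩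
      have hn : ∀ᶠ δ : ℝ in 𝓝[>] 0,
          (((-1 : ℝ) * δ : ℝ) : ℂ) + (β : ℂ) * I ∈ sqr s ∩ {z | z.re < 0} :=
        (hmem (-1) (by simp)).mono fun δ h => ⟨h.2, by simpa using h.1⟩
      have hin : ∀ (σ : ℝ) (H : Set ℂ),
          (∀ᶠ δ : ℝ in 𝓝[>] 0, ((σ * δ : ℝ) : ℂ) + (β : ℂ) * I ∈ H) →
          ∀ V : Set ℂ, (∀ z ∈ H, (k z).1 ∈ V) → (k ((β : ℂ) * I)).1 ∈ closure V :=
        fun σ H hH V hV => mem_closure_of_tendsto (hlim σ) (hH.mono fun δ hδ => hV _ hδ)
      refine ⟨(hbox _ hz).1.1, ?_, fun hi => ?_⟩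
      · -- some side is inside
        have hpick : ∀ z ∈ sqr s, z.re ≠ 0 → (k z).1 ∈ A → (k ((β : ℂ) * I)).1 ∈ closure G := by
          intro z hz hzr hzA
          rcases hzr.lt_or_gt with h | h
          · rcases hM with hM | hM
            · exact hin _ _ hn _ fun w hw => interior_subset (hM w hw)
            · exact absurd (subset_closure hzA) (hM z ⟨hz, h⟩)
          · rcases hP with hP | hP
            · exact hin _ _ hp _ fun w hw => interior_subset (hP w hw)
            · exact absurd (subset_closure hzA) (hP z ⟨hz, h⟩)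
        have := hpick z₁ hz₁ hz₁r hz₁A
        rwa [hG, closure_closure] at this
      · -- some side is outside
        have hcl : (k ((β : ℂ) * I)).1 ∈ closure Gᶜ := by
          rcases hz₂r.lt_or_gt with h | h
          · rcases hM with hM | hM
            · exact absurd (interior_subset (hM z₂ ⟨hz₂, h⟩)) hz₂G
            · exact hin _ _ hn _ hM
          · rcases hP with hP | hP
            · exact absurd (interior_subset (hP z₂ ⟨hz₂, h⟩)) hz₂G
            · exact hin _ _ hp _ hP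
        rw [closure_compl] at hcl
        exact hcl hi
    have hIs : ∀ β ∈ Icc (-(s / 2)) (s / 2), |β| < s := fun β hβ => by
      rw [abs_lt]; constructor <;> linarith [hβ.1, hβ.2]
    have hIq : ∀ β ∈ Icc (-(s / 2)) (s / 2), ((β : ℂ) * I) ∈ sqr s := fun β hβ =>
      ⟨by simpa using hs, by simpa using hIs β hβ⟩
    refine ⟨fun β => k (β * I), s / 2, half_pos hs, ?_, ?_, fun β hβ =>
      ⟨_, ⟨harc β (hIs β hβ), (hbox _ (hIq β hβ)).1.2⟩, ((hbox _ (hIq β hβ)).2.1).symm⟩⟩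
    · intro β hβ
      refine ContinuousAt.continuousWithinAt ?_
      have hz := hsub (hIq β hβ)
      exact ContinuousAt.comp (g := k) (f := fun β : ℝ => (β : ℂ) * I)
        (ContinuousAt.comp (g := c.e.symm) (f := fun z : ℂ => (b, Fl'.φ.symm z))
          (c.e.symm.continuousAt hz.1.2)
          (continuousAt_const.prodMk (Fl'.φ.symm.continuousAt hz.1.1)))
        (by fun_prop)
    · intro β hβ β' hβ' he
      simp only [(hbox _ (hIq β hβ)).2.2.1, (hbox _ (hIq β' hβ')).2.2.1] at he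
      have := Fl'.φ.symm.injOn (hsub (hIq β hβ)).1.1 (hsub (hIq β' hβ')).1.1 he
      simpa using congrArg Complex.im this
  -- no exceptional value
  have hX : ∀ t ∈ S ∩ O, W.f j (γ t) ∉ W.X := by
    intro t ht hξX
    rcases hconst (j, some (W.f j (γ t))) (by simp [hξX]) with hl | hd
    · have heq : W.f j (γ t') = W.f j (γ t) := hFmem j _ t' ht'.1.1 (hl ht')
      obtain ⟨τ, η, hη, -, hinj, hτ⟩ := key (fun u => (u - W.f j (γ t')).re)
        ((Complex.reCLM.contDiff).comp (contDiff_id.sub contDiff_const)) (by simp)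
        (by
          intro h
          have h1 : HasFDerivAt (fun u : ℂ => (u - W.f j (γ t')).re) reCLM (W.f j (γ t')) :=
            reCLM.hasFDerivAt.comp _ ((hasFDerivAt_id _).sub_const _)
          rw [h1.fderiv] at h
          simpa using DFunLike.congr_fun h 1)
        (by
          filter_upwards [hO.eventually_mem ht'.2] with t'' hO'' hS''
          have := hFmem j _ t'' hS''.1 (hl ⟨hS'', hO''⟩)
          rw [show W.f j (γ t'') = W.f j (γ t) from this, heq, sub_self, Complex.zero_re])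
      have hval : ∀ β ∈ Icc (-η) η, W.f j (τ β) = W.f j (γ t) := fun β hβ => by
        obtain ⟨t'', ht'', e⟩ := hτ β hβ
        rw [e]; exact hFmem j _ t'' ht''.1.1 (hl ht'')
      have h1 : (0 : ℝ) ∈ Icc (-η) η := ⟨by linarith, hη.le⟩
      have h2 : η ∈ Icc (-η) η := ⟨by linarith, le_rfl⟩
      exact hη.ne (hinj h1 h2 ((hval 0 h1).trans (hval η h2).symm))
    · exact Set.disjoint_left.1 hd ht (subset_closure ⟨ht.1.1, rfl⟩)
  obtain ⟨ρ, hρ, hρ0, hρd, hρC⟩ := W.regular_C _ hjC (hX t' ht')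
  obtain ⟨τ, η, hη, hτc, hinj, hτ⟩ := key ρ hρ hρ0 hρd (by
    filter_upwards [hO.eventually_mem ht'.2, (hgc j t' ht'.1.1).eventually hρC] with t htO htC htS
    exact htC.1 (hFmem j none t htS.1 (hall ⟨htS, htO⟩)))
  refine ⟨j, hj, τ, η, hη, hτc, fun β hβ β' hβ' he => hinj hβ hβ' (by simp only [he]),
    fun β hβ => ?_⟩
  obtain ⟨t, ht, he⟩ := hτ β hβ
  obtain ⟨h1, h2, -⟩ := W.symm_spec (htar t ht.1.1)
  rw [he]
  exact ⟨h1, h2, hSbd t ht.1, hFmem j none t ht.1.1 (hall ht), hX t ht⟩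

end

end Vale.Agent.P274.Surface
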