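import Vale.Agent.P274.Surface.Corner.Leaf
import Mathlib.Topology.Baire.Lemmas
import Mathlib.Topology.Baire.CompleteMetrizable
import Mathlib.Topology.Order.IntermediateValue

/-!
A piece of surface inside the boundary of the filled part.
-/

open Filter Metric Set Function Topology Complex

namespace Vale.Agent.P274.Surface

noncomputable section

theorem Flat.fderiv_ne {ρ : ℂ → ℝ} {b : ℂ} {O : Set ℂ} (F : Flat ρ b O) {u : ℂ}
    (hu : u ∈ F.φ.source) : fderiv ℝ ρ u ≠ 0 := by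
  obtain ⟨T, -, hinj, hre⟩ := F.strict u hu
  obtain ⟨v, hv⟩ := (LinearMap.surjective_of_injective (f := (T : ℂ →ₗ[ℝ] ℂ)) hinj) 1
  intro h
  have := hre v
  rw [h, show T v = 1 from hv] at this
  simp at this

theorem Flat.eq_im_mul_I {ρ : ℂ → ℝ} {b : ℂ} {O : Set ℂ} (F : Flat ρ b O) {u : ℂ}
    (hu : u ∈ F.φ.source) (h0 : ρ u = 0) : (((F.φ u).im : ℝ) : ℂ) * I = F.φ u := by
  apply Complex.ext <;> simp [F.re_eq u hu, h0]

variable {Ω : Sys} (W : Web Ω.U)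

/-- A box around a point of the other families in which the closed sets for Baire are taken. -/
structure Web.Box (j : Fin W.d) where
  p : C2
  ρ : ℂ → ℝ
  contDiff : ContDiff ℝ 1 ρ
  c : HChart
  c_sub : c.e.source ⊆ W.chart.e.source
  c_eq : ∀ y, c.e y = (W.f₀ y, W.f j y)
  O : Set ℂ
  O_eq : ∀ u ∈ O, (u ∈ W.C ↔ ρ u = 0) ∧ u ∉ W.X
  F : Flat ρ (W.f j p) O
  e : ℝ
  e_pos : 0 < e
  mem : p ∈ c.e.source
  box : closedBall (W.f₀ p) e ×ˢ closedBall (W.f j p) e ⊆ c.e.target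
  box' : closedBall (W.f j p) e ⊆ F.φ.source

/-- The open set of a box. -/
def Web.Box.V {W : Web Ω.U} {j : Fin W.d} (Q : W.Box j) : Set C2 :=
  Q.c.e.source ∩ Q.c.e ⁻¹' (ball (W.f₀ Q.p) Q.e ×ˢ ball (W.f j Q.p) Q.e)

theorem Web.Box.isOpen_V {W : Web Ω.U} {j : Fin W.d} (Q : W.Box j) : IsOpen Q.V :=
  Q.c.e.isOpen_inter_preimage (isOpen_ball.prod isOpen_ball)

theorem Web.exists_box {j : Fin W.d} (hj : j ≠ W.i₀) {p : C2} (hp : p ∈ W.chart.e.source)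
    (hC : W.f j p ∈ W.C) (hX : W.f j p ∉ W.X) : ∃ Q : W.Box j, Q.p = p := by
  obtain ⟨ρ, hρ, hρ0, hρd, hρC⟩ := W.regular_C _ hC hX
  obtain ⟨c, hpc, hcsub, hce⟩ := exists_hchart W.chart.e.open_source
    ((W.diff W.i₀).mono W.source_sub) ((W.diff j).mono W.source_sub)
    (fun y hy => W.transversal _ _ hj.symm y (W.source_sub hy)) hp
  set O := {u | (u ∈ W.C ↔ ρ u = 0) ∧ u ∉ W.X}
  obtain ⟨F⟩ := exists_flat hρ hρ0 hρd (O := O)
    (hρC.and (W.finite_X.isClosed.isOpen_compl.mem_nhds hX))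
  obtain ⟨e, he, hsub⟩ := Metric.nhds_basis_closedBall.mem_iff.1
    (show c.e.target ∩ Prod.snd ⁻¹' F.φ.source ∈ 𝓝 (W.f₀ p, W.f j p) by
      refine inter_mem (c.e.open_target.mem_nhds ?_)
        (continuousAt_snd.preimage_mem_nhds (F.φ.open_source.mem_nhds F.mem))
      rw [← hce]; exact c.e.map_source hpc)
  rw [← closedBall_prod_same] at hsub
  exact ⟨⟨p, ρ, hρ, c, hcsub, hce, O, fun u hu => hu, F, e, he, hpc,
    fun w hw => (hsub hw).1, fun u hu => (hsub (mk_mem_prod (mem_closedBall_self he.le) hu)).2⟩, rfl⟩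

/-- A piece of surface inside the boundary of the filled part. -/
theorem Web.exists_piece :
    ∃ (j : Fin W.d) (x : C2) (ρ : ℂ → ℝ), j ≠ W.i₀ ∧ x ∈ W.chart.e.source ∧
      W.ρ₀ (W.f₀ x) = 0 ∧ ContDiff ℝ 1 ρ ∧ ρ (W.f j x) = 0 ∧ fderiv ℝ ρ (W.f j x) ≠ 0 ∧
      W.f j x ∉ W.X ∧ (∀ᶠ u in 𝓝 (W.f j x), (u ∈ W.C ↔ ρ u = 0) ∧ u ∉ W.X) ∧
      ∀ᶠ y in 𝓝 x, W.ρ₀ (W.f₀ y) = 0 → ρ (W.f j y) = 0 → y ∈ W.bd := by
  classical
  have hb₀ : W.b₀ ∈ ball W.b₀ W.rb := mem_ball_self W.rb_pos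
  obtain ⟨F₀⟩ := exists_flat W.contDiff₀ W.zero₀ (W.regular₀ _ hb₀) (isOpen_ball.mem_nhds hb₀)
  set g : ℝ → ℂ := fun α => F₀.φ.symm ((α : ℂ) * I) with hg
  have h0t : (0 : ℂ) ∈ F₀.φ.target := F₀.center ▸ F₀.φ.map_source F₀.mem
  have hg0 : g 0 = W.b₀ := by
    have := F₀.φ.left_inv F₀.mem
    rw [F₀.center] at this
    simpa [hg] using this
  have hIc : Continuous fun α : ℝ => (α : ℂ) * I := by fun_prop
  have hgc : ∀ α : ℝ, (α : ℂ) * I ∈ F₀.φ.target → ContinuousAt g α := fun α hα =>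
    ContinuousAt.comp (g := F₀.φ.symm) (f := fun α : ℝ => (α : ℂ) * I)
      (F₀.φ.symm.continuousAt hα) hIc.continuousAt
  -- the range of parameters
  obtain ⟨t₁, ht₁, hext⟩ := W.exit
  have htar : ∀ {b t}, b ∈ ball W.b₀ W.rb → t ∈ ball W.c₀ W.r → (b, t) ∈ W.chart.e.target :=
    fun hb ht => by rw [W.target_eq]; exact ⟨hb, ht⟩
  have hc₀ : W.c₀ ∈ ball W.c₀ W.r := mem_ball_self W.r_pos
  have hgood₀ : W.chart.e.symm (W.b₀, W.c₀) ∈ W.good := by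
    have hs := W.chart.e.map_target (htar hb₀ hc₀)
    have hc := W.chart.e.continuousAt hs
    rw [ContinuousAt, W.chart.e.right_inv (htar hb₀ hc₀)] at hc
    show ∀ᶠ q in 𝓝 _, _
    filter_upwards [W.chart.e.open_source.eventually_mem hs, hc.eventually W.filled]
      with q hq hfill
    rw [W.chart_eq q hq, W.symm_f₀ hq] at hfill
    exact hfill
  have hev : ∀ᶠ α : ℝ in 𝓝 0, (α : ℂ) * I ∈ F₀.φ.target ∧
      W.chart.e.symm (g α, W.c₀) ∈ W.good ∧ W.chart.e.symm (g α, t₁) ∉ closure Ω.U := by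
    have hgc0 : ContinuousAt g 0 := hgc 0 (by simpa using h0t)
    have hk : ∀ t ∈ ball W.c₀ W.r, ContinuousAt (fun α => W.chart.e.symm (g α, t)) 0 :=
      fun t ht => ContinuousAt.comp (g := W.chart.e.symm) (f := fun α => (g α, t))
        (W.chart.e.symm.continuousAt (by rw [hg0]; exact htar hb₀ ht))
        (hgc0.prodMk continuousAt_const)
    refine (hIc.continuousAt.eventually (F₀.φ.open_target.eventually_mem (by simpa using h0t))).and
      (((hk _ hc₀).eventually (W.isOpen_good.eventually_mem (show W.chart.e.symm (g 0, W.c₀) ∈ W.good by rw [hg0]; exact hgood₀))).and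
        ((hk _ ht₁).eventually (isClosed_closure.isOpen_compl.eventually_mem
          (show W.chart.e.symm (g 0, t₁) ∈ (closure Ω.U)ᶜ by rw [hg0]; exact hext))))
  obtain ⟨a, ha, hsub⟩ := Metric.nhds_basis_closedBall.mem_iff.1 hev
  have hI : ∀ α ∈ Icc (-a) a, (α : ℂ) * I ∈ F₀.φ.target ∧ g α ∈ ball W.b₀ W.rb ∧
      W.ρ₀ (g α) = 0 ∧ W.chart.e.symm (g α, W.c₀) ∈ W.good ∧
      W.chart.e.symm (g α, t₁) ∉ closure Ω.U := fun α hα => by
    obtain ⟨h1, h2, h3⟩ := hsub (show α ∈ closedBall 0 a by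
      rwa [mem_closedBall_zero_iff, Real.norm_eq_abs, abs_le])
    exact ⟨h1, F₀.sub (F₀.φ.map_target h1), by rw [hg, F₀.symm_re h1]; simp, h2, h3⟩
  -- countably many boxes
  have hT : ∀ j : Fin W.d, ∃ T : Set (W.Box j), T.Countable ∧
      (⋃ Q ∈ T, Q.V) = ⋃ Q : W.Box j, Q.V := fun j =>
    TopologicalSpace.isOpen_iUnion_countable _ fun Q => Q.isOpen_V
  choose T hTc hTeq using hT
  have : ∀ j, Countable (T j) := fun j => (hTc j).to_subtype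
  let ι := (Σ j : Fin W.d, T j × ℚ × ℚ)
  let adm : ι → Prop := fun i => i.1 ≠ W.i₀ ∧ i.2.2.1 < i.2.2.2 ∧
    ∀ β ∈ Icc (i.2.2.1 : ℝ) i.2.2.2, (β : ℂ) * I ∈ i.2.1.1.F.φ.target ∧
      i.2.1.1.F.φ.symm ((β : ℂ) * I) ∈ closedBall (W.f i.1 i.2.1.1.p) i.2.1.1.e
  let K : ι → Set ℝ := fun i => {α | α ∈ Icc (-a) a ∧ adm i ∧
    g α ∈ closedBall (W.f₀ i.2.1.1.p) i.2.1.1.e ∧
    ∀ β ∈ Icc (i.2.2.1 : ℝ) i.2.2.2,
      i.2.1.1.c.e.symm (g α, i.2.1.1.F.φ.symm ((β : ℂ) * I)) ∈ W.bd}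
  have hgon : ContinuousOn g (Icc (-a) a) := fun α hα => (hgc α (hI α hα).1).continuousWithinAt
  have hK : ∀ i, IsClosed (K i) := by
    intro i
    by_cases had : adm i
    · set S := Icc (-a) a ∩ g ⁻¹' closedBall (W.f₀ i.2.1.1.p) i.2.1.1.e
      have hS : IsClosed S := hgon.preimage_isClosed_of_isClosed isClosed_Icc isClosed_closedBall
      have heq : K i = ⋂ β : ℝ, {α | α ∈ S ∧ (β ∈ Icc (i.2.2.1 : ℝ) i.2.2.2 →
          i.2.1.1.c.e.symm (g α, i.2.1.1.F.φ.symm ((β : ℂ) * I)) ∈ W.bd)} := by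
        ext α
        simp only [K, S, mem_iInter, mem_ofPred_eq, mem_inter_iff, mem_preimage]
        exact ⟨fun h β => ⟨⟨h.1, h.2.2.1⟩, h.2.2.2 β⟩,
          fun h => ⟨(h 0).1.1, had, (h 0).1.2, fun β => (h β).2⟩⟩
      rw [heq]
      refine isClosed_iInter fun β => ?_
      by_cases hβ : β ∈ Icc (i.2.2.1 : ℝ) i.2.2.2
      · simp only [hβ, true_imp_iff]
        refine ContinuousOn.preimage_isClosed_of_isClosed
          (f := fun α => i.2.1.1.c.e.symm (g α, i.2.1.1.F.φ.symm ((β : ℂ) * I))) ?_ hS W.isClosed_bd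
        intro α hα
        exact (i.2.1.1.c.e.symm.continuousAt (i.2.1.1.box (show (g α, _) ∈ _ from mk_mem_prod hα.2 (had.2.2 β hβ).2))).comp_continuousWithinAt
          (f := fun α => (g α, i.2.1.1.F.φ.symm ((β : ℂ) * I)))
          (((hgon α hα.1).mono inter_subset_left).prodMk continuousWithinAt_const)
      · simpa [hβ] using hS
    · simp [K, had]
  have hcov : ∀ α ∈ Icc (-a) a, ∃ i, α ∈ K i := by
    intro α hα
    obtain ⟨h1, hb, hb0, hcg, hte⟩ := hI α hα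
    obtain ⟨j, hj, τ, η, hη, hτc, hτi, hτ⟩ := W.exists_arc hb hb0 hcg ht₁ hte
    have h0η : (0 : ℝ) ∈ Icc (-η) η := ⟨by linarith, hη.le⟩
    obtain ⟨hs, -, -, hC, hX⟩ := hτ 0 h0η
    have hmem : τ 0 ∈ ⋃ Q ∈ T j, Q.V := by
      rw [hTeq]
      obtain ⟨Q, hQ⟩ := W.exists_box hj hs hC hX
      refine mem_iUnion.2 ⟨Q, hQ ▸ Q.mem, ?_⟩
      rw [mem_preimage, Q.c_eq, hQ]
      exact ⟨mem_ball_self Q.e_pos, mem_ball_self Q.e_pos⟩
    obtain ⟨Q, hQT, hQV⟩ := mem_iUnion₂.1 hmem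
    obtain ⟨d, hd, hdsub⟩ := Metric.mem_nhdsWithin_iff.1
      ((hτc 0 h0η).preimage_mem_nhdsWithin (Q.isOpen_V.mem_nhds hQV))
    set η' := min η (d / 2) with hη'
    have hη'0 : 0 < η' := lt_min hη (half_pos hd)
    have hsubI : Icc (-η') η' ⊆ Icc (-η) η := Icc_subset_Icc
      (by linarith [min_le_left η (d / 2)]) (min_le_left _ _)
    have hV : ∀ β ∈ Icc (-η') η', τ β ∈ Q.V := fun β hβ => hdsub ⟨by
      rw [mem_ball, Real.dist_eq, sub_zero]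
      exact lt_of_le_of_lt (abs_le.2 hβ) (lt_of_le_of_lt (min_le_right η (d / 2)) (half_lt_self hd)),
      hsubI hβ⟩
    set G : ℝ → ℝ := fun β => (Q.F.φ (W.f j (τ β))).im with hG
    have hsrc : ∀ β ∈ Icc (-η') η', W.f j (τ β) ∈ ball (W.f j Q.p) Q.e ∧
        W.f j (τ β) ∈ Q.F.φ.source ∧ ((G β : ℝ) : ℂ) * I = Q.F.φ (W.f j (τ β)) ∧
        Q.c.e.symm (g α, W.f j (τ β)) = τ β ∧ g α ∈ ball (W.f₀ Q.p) Q.e := by
      intro β hβ
      obtain ⟨hv1, hv2⟩ := hV β hβ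
      rw [mem_preimage, Q.c_eq] at hv2
      obtain ⟨-, he, -, hC', -⟩ := hτ β (hsubI hβ)
      have hs' := Q.box' (ball_subset_closedBall hv2.2)
      refine ⟨hv2.2, hs', Q.F.eq_im_mul_I hs' ((Q.O_eq _ (Q.F.sub hs')).1.1 hC'), ?_, he ▸ hv2.1⟩
      rw [← he, ← Q.c_eq]; exact Q.c.e.left_inv hv1
    have hGc : ContinuousOn G (Icc (-η') η') := by
      intro β hβ
      refine Complex.continuous_im.continuousAt.comp_continuousWithinAt
        (f := fun β => Q.F.φ (W.f j (τ β))) ?_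
      refine (Q.F.φ.continuousAt (hsrc β hβ).2.1).comp_continuousWithinAt
        (f := fun β => W.f j (τ β)) ?_
      exact (W.continuousAt_f (hτ β (hsubI hβ)).1).comp_continuousWithinAt
        ((hτc β (hsubI hβ)).mono hsubI)
    have hne : G (-η') ≠ G η' := by
      intro h
      have hl : -η' ∈ Icc (-η') η' := ⟨le_rfl, by linarith⟩
      have hr : η' ∈ Icc (-η') η' := ⟨by linarith, le_rfl⟩
      have : W.f j (τ (-η')) = W.f j (τ η') := Q.F.φ.injOn (hsrc _ hl).2.1 (hsrc _ hr).2.1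
        (by rw [← (hsrc _ hl).2.2.1, ← (hsrc _ hr).2.2.1, h])
      have := hτi (hsubI hl) (hsubI hr)
        (by rw [← (hsrc _ hl).2.2.2.1, ← (hsrc _ hr).2.2.2.1, this])
      linarith
    obtain ⟨q₁, hq₁, hq₁'⟩ := exists_rat_btwn (min_lt_max.2 hne)
    obtain ⟨q₂, hq₂, hq₂'⟩ := exists_rat_btwn hq₁'
    have hivt : ∀ β' ∈ Icc (q₁ : ℝ) q₂, ∃ β ∈ Icc (-η') η', G β = β' := by
      intro β' hβ'
      have := intermediate_value_uIcc (a := -η') (b := η') (f := G)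
        (by rwa [uIcc_of_le (by linarith)])
      rw [uIcc_of_le (show -η' ≤ η' by linarith)] at this
      exact this ⟨hq₁.le.trans hβ'.1, hβ'.2.trans hq₂'.le⟩
    refine ⟨⟨j, ⟨Q, hQT⟩, q₁, q₂⟩, hα, ⟨hj, by exact_mod_cast hq₂, ?_⟩, ?_, ?_⟩
    · intro β' hβ'
      obtain ⟨β, hβ, rfl⟩ := hivt β' hβ'
      obtain ⟨e1, e2, e3, -⟩ := hsrc β hβ
      rw [e3]
      exact ⟨Q.F.φ.map_source e2, by rw [Q.F.φ.left_inv e2]; exact ball_subset_closedBall e1⟩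
    · exact ball_subset_closedBall (hsrc η' ⟨by linarith, le_rfl⟩).2.2.2.2
    · intro β' hβ'
      obtain ⟨β, hβ, rfl⟩ := hivt β' hβ'
      obtain ⟨-, e2, e3, e4, -⟩ := hsrc β hβ
      show Q.c.e.symm (g α, Q.F.φ.symm _) ∈ W.bd
      rw [e3, Q.F.φ.left_inv e2, e4]
      exact (hτ β (hsubI hβ)).2.2.1
  -- Baire
  let K' : ι ⊕ Bool → Set ℝ := Sum.elim K fun b => bif b then Iic (-a) else Ici a
  have hK' : ∀ i, IsClosed (K' i) := by
    rintro (i | b)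
    exacts [hK i, by cases b <;> first | exact isClosed_Ici | exact isClosed_Iic]
  have hun : ⋃ i, K' i = univ := by
    refine eq_univ_of_forall fun α => mem_iUnion.2 ?_
    rcases le_or_gt α (-a) with h | h
    · exact ⟨.inr true, h⟩
    rcases le_or_gt a α with h' | h'
    · exact ⟨.inr false, h'⟩
    obtain ⟨i, hi⟩ := hcov α ⟨h.le, h'.le⟩
    exact ⟨.inl i, hi⟩
  obtain ⟨α₀, hmem, hα₀⟩ := (dense_iUnion_interior_of_closed hK' hun).exists_mem_open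
    (isOpen_Ioo (a := -a) (b := a)) (nonempty_Ioo.2 (by linarith))
  obtain ⟨i, hi⟩ := mem_iUnion.1 hmem
  rcases i with i | b
  swap
  · cases b <;> simp [K'] at hi <;> linarith [hα₀.1, hα₀.2]
  obtain ⟨j, ⟨Q, hQT⟩, q₁, q₂⟩ := i
  obtain ⟨hαI, ⟨hj, hq, hadm⟩, hgb, -⟩ := interior_subset hi
  set β₀ : ℝ := ((q₁ : ℝ) + q₂) / 2 with hβ₀
  have hq' : (q₁ : ℝ) < q₂ := by exact_mod_cast hq
  have hβI : β₀ ∈ Ioo (q₁ : ℝ) q₂ := by constructor <;> (rw [hβ₀]; linarith)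
  obtain ⟨hβt, hβb⟩ := hadm β₀ (Ioo_subset_Icc_self hβI)
  have htx : (g α₀, Q.F.φ.symm ((β₀ : ℂ) * I)) ∈ Q.c.e.target := Q.box ⟨hgb, hβb⟩
  set x := Q.c.e.symm (g α₀, Q.F.φ.symm ((β₀ : ℂ) * I))
  have hxc : x ∈ Q.c.e.source := Q.c.e.map_target htx
  have hxe : (W.f₀ x, W.f j x) = (g α₀, Q.F.φ.symm ((β₀ : ℂ) * I)) := by
    rw [← Q.c_eq]; exact Q.c.e.right_inv htx
  rw [Prod.mk.injEq] at hxe
  have hxs : W.f j x ∈ Q.F.φ.source := by rw [hxe.2]; exact Q.F.φ.map_target hβt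
  have hx0 : W.ρ₀ (W.f₀ x) = 0 := by rw [hxe.1]; exact (hI α₀ hαI).2.2.1
  have hx0s : W.f₀ x ∈ F₀.φ.source := by rw [hxe.1]; exact F₀.φ.map_target (hI α₀ hαI).1
  refine ⟨j, x, Q.ρ, hj, Q.c_sub hxc, hx0, Q.contDiff,
    by rw [hxe.2, Q.F.symm_re hβt]; simp, Q.F.fderiv_ne hxs, (Q.O_eq _ (Q.F.sub hxs)).2,
    Filter.mem_of_superset (Q.F.φ.open_source.mem_nhds hxs) fun u hu => Q.O_eq u (Q.F.sub hu), ?_⟩
  have hc0 : ContinuousAt W.f₀ x := W.continuousAt_f (Q.c_sub hxc)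
  have hcj : ContinuousAt (W.f j) x := W.continuousAt_f (Q.c_sub hxc)
  have hA : ContinuousAt (fun y => (F₀.φ (W.f₀ y)).im) x :=
    Complex.continuous_im.continuousAt.comp
      (ContinuousAt.comp (g := F₀.φ) (f := W.f₀) (F₀.φ.continuousAt hx0s) hc0)
  have hB : ContinuousAt (fun y => (Q.F.φ (W.f j y)).im) x :=
    Complex.continuous_im.continuousAt.comp
      (ContinuousAt.comp (g := Q.F.φ) (f := W.f j) (Q.F.φ.continuousAt hxs) hcj)
  filter_upwards [Q.c.e.open_source.eventually_mem hxc,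
    hc0.eventually (F₀.φ.open_source.eventually_mem hx0s),
    hcj.eventually (Q.F.φ.open_source.eventually_mem hxs),
    hA.eventually (isOpen_interior.eventually_mem (show (F₀.φ (W.f₀ x)).im ∈ _ by
      rw [hxe.1, hg, F₀.φ.right_inv (hI α₀ hαI).1]; simpa using hi)),
    hB.eventually (isOpen_Ioo.eventually_mem (show (Q.F.φ (W.f j x)).im ∈ Ioo (q₁ : ℝ) q₂ by
      rw [hxe.2, Q.F.φ.right_inv hβt]; simpa using hβI))] with y hy hy0 hyj hyK hyq h0 hρ0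
  obtain ⟨-, -, -, hall⟩ := interior_subset hyK
  have := hall _ (Ioo_subset_Icc_self hyq)
  simp only [hg] at this
  rw [F₀.eq_im_mul_I hy0 h0, Q.F.eq_im_mul_I hyj hρ0, F₀.φ.left_inv hy0, Q.F.φ.left_inv hyj,
    ← Q.c_eq, Q.c.e.left_inv hy] at this
  exact this

end

end Vale.Agent.P274.Surface
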