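import Vale.Agent.P274.Surface.Corner.Coords

/-!
The families through a piece of surface and their slopes.
-/

open Filter Metric Set Function Topology Complex

namespace Vale.Agent.P274.Surface

noncomputable section

variable {Ω : Sys} (W : Web Ω.U)

/-- The common zero set of the distinguished family and the family `j`. -/
def Web.piece (j : Fin W.d) (ρ : ℂ → ℝ) : Set C2 :=
  {y | W.ρ₀ (W.f₀ y) = 0 ∧ ρ (W.f j y) = 0}

/-- A point of a piece of surface with the families through it. -/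
structure Web.Cfg (j : Fin W.d) (Λ : Finset (Fin W.d)) (ρ : Fin W.d → ℂ → ℝ) (x : C2) : Prop where
  j_mem : j ∈ Λ
  ne : ∀ l ∈ Λ, l ≠ W.i₀
  mem : x ∈ W.chart.e.source
  mem_piece : x ∈ W.piece j (ρ j)
  contDiff : ∀ l ∈ Λ, ContDiff ℝ 1 (ρ l)
  regular : ∀ l ∈ Λ, fderiv ℝ (ρ l) (W.f l x) ≠ 0
  C_eq : ∀ l ∈ Λ, ∀ᶠ u in 𝓝 (W.f l x), (u ∈ W.C ↔ ρ l u = 0)
  sub : ∀ l ∈ Λ, ∀ᶠ y in 𝓝 x, y ∈ W.piece j (ρ j) → ρ l (W.f l y) = 0
  out : ∀ l, l ≠ W.i₀ → l ∉ Λ → W.f l x ∉ W.C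
  bd : ∀ᶠ y in 𝓝 x, y ∈ W.piece j (ρ j) → y ∈ W.bd

variable {W} {j : Fin W.d} {Λ : Finset (Fin W.d)} {ρ : Fin W.d → ℂ → ℝ} {x : C2}

theorem Web.Cfg.eventually (h : W.Cfg j Λ ρ x) :
    ∀ᶠ y in 𝓝 x, y ∈ W.piece j (ρ j) → W.Cfg j Λ ρ y := by
  have hl : ∀ᶠ y in 𝓝 x, ∀ l, (l ∈ Λ → fderiv ℝ (ρ l) (W.f l y) ≠ 0 ∧
      (∀ᶠ u in 𝓝 (W.f l y), (u ∈ W.C ↔ ρ l u = 0)) ∧
      ∀ᶠ z in 𝓝 y, z ∈ W.piece j (ρ j) → ρ l (W.f l z) = 0) ∧
      (l ≠ W.i₀ → l ∉ Λ → W.f l y ∉ W.C) := by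
    refine eventually_all.2 fun l => ?_
    have hc : ContinuousAt (W.f l) x := W.continuousAt_f h.mem
    by_cases hl : l ∈ Λ
    · have hd : ContinuousAt (fun u => fderiv ℝ (ρ l) u) (W.f l x) :=
        ((h.contDiff l hl).continuous_fderiv (by norm_num)).continuousAt
      filter_upwards [hc.eventually (hd.eventually_ne (h.regular l hl)),
        hc.eventually (h.C_eq l hl).eventually_nhds, (h.sub l hl).eventually_nhds] with y h1 h2 h3
      exact ⟨fun _ => ⟨h1, h2, h3⟩, fun _ h' => absurd hl h'⟩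
    · by_cases hl0 : l = W.i₀
      · exact Eventually.of_forall fun y => ⟨fun h' => absurd h' hl, fun h' => absurd hl0 h'⟩
      · filter_upwards [hc.eventually (W.isClosed_C.isOpen_compl.eventually_mem (h.out l hl0 hl))]
          with y hy
        exact ⟨fun h' => absurd h' hl, fun _ _ => hy⟩
  filter_upwards [W.chart.e.open_source.eventually_mem h.mem, hl, h.bd.eventually_nhds]
    with y hy hly hbd hp
  exact ⟨h.j_mem, h.ne, hy, hp, h.contDiff, fun l hl' => ((hly l).1 hl').1,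
    fun l hl' => ((hly l).1 hl').2.1, fun l hl' => ((hly l).1 hl').2.2, fun l => (hly l).2, hbd⟩

theorem Web.Cfg.neg (h : W.Cfg j Λ ρ x) :
    W.Cfg j Λ (Function.update ρ j fun u => -ρ j u) x := by
  have hj : Function.update ρ j (fun u => -ρ j u) j = fun u => -ρ j u := Function.update_self ..
  have hp : W.piece j (Function.update ρ j (fun u => -ρ j u) j) = W.piece j (ρ j) := by
    ext y; simp [Web.piece]
  have key : ∀ l, Function.update ρ j (fun u => -ρ j u) l = ρ l ∨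
      Function.update ρ j (fun u => -ρ j u) l = fun u => -ρ l u := fun l => by
    rcases eq_or_ne l j with rfl | hne
    exacts [Or.inr hj, Or.inl (Function.update_of_ne hne _ _)]
  refine ⟨h.j_mem, h.ne, h.mem, hp ▸ h.mem_piece, fun l hl => ?_, fun l hl => ?_, fun l hl => ?_,
    fun l hl => ?_, h.out, hp ▸ h.bd⟩ <;> rcases key l with e | e <;> rw [e]
  · exact h.contDiff l hl
  · exact (h.contDiff l hl).neg
  · exact h.regular l hl
  · rw [show (fun u => -ρ l u) = -ρ l from rfl, fderiv_neg]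
    simpa using h.regular l hl
  · exact h.C_eq l hl
  · simpa using h.C_eq l hl
  · rw [hp]; exact h.sub l hl
  · rw [hp]; simpa using h.sub l hl

/-- The slopes of the families through a piece, with a strict estimate. -/
theorem Web.Cfg.exists_slopes (h : W.Cfg j Λ ρ x) : ∃ σ q : Fin W.d → ℝ, σ j = 0 ∧ q j = 1 ∧
    (∀ l ∈ Λ, q l ≠ 0) ∧ InjOn σ Λ ∧
    ∀ ε > 0, ∀ᶠ y in 𝓝 x, ∀ l ∈ Λ,
      |ρ l (W.f l y) / q l - (ρ j (W.f j y) - σ l * W.ρ₀ (W.f₀ y))| ≤
        ε * (|W.ρ₀ (W.f₀ y)| + |ρ j (W.f j y)|) := by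
  obtain ⟨K⟩ := W.exists_coords (h.ne j h.j_mem) h.mem (h.contDiff j h.j_mem) h.mem_piece.1
    h.mem_piece.2 (h.regular j h.j_mem)
  obtain ⟨T, hT, hTs, ⟨A₀, -, hA₀, hre₀⟩, A, -, hA, hre⟩ := K.exists_deriv
  set φ : Fin W.d → C2 →L[ℂ] ℂ := fun l => fderiv ℂ (W.f l) x
  set r : Fin W.d → ℂ →L[ℝ] ℝ := fun l => fderiv ℝ (ρ l) (W.f l x) with hr
  set L : Fin W.d → C2 →L[ℝ] ℝ := fun l => (r l).comp (((φ l).restrictScalars ℝ).comp T)
  have hLd : ∀ l ∈ Λ, HasStrictFDerivAt (fun p => ρ l (W.f l (K.P.symm p))) (L l) 0 := fun l hl => by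
    have h1 : HasStrictFDerivAt (ρ l) (r l) (W.f l (K.P.symm 0)) := by
      rw [K.symm_zero]; exact (h.contDiff l hl).contDiffAt.hasStrictFDerivAt (by norm_num)
    exact HasStrictFDerivAt.comp (g := ρ l) (f := fun p => W.f l (K.P.symm p)) (0 : C2) h1
      (K.hasStrictFDerivAt_f h.mem hT l)
  have hkill : ∀ l ∈ Λ, ∀ p : C2, p.1.re = 0 → p.2.re = 0 → L l p = 0 := by
    intro l hl p hp1 hp2
    have hline : HasDerivAt (fun t : ℝ => t • p) p 0 := by
      simpa using (hasDerivAt_id (0 : ℝ)).smul_const p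
    have h1 : HasDerivAt (fun t : ℝ => ρ l (W.f l (K.P.symm (t • p)))) (L l p) 0 :=
      HasFDerivAt.comp_hasDerivAt (f := fun t : ℝ => t • p)
        (l := fun q => ρ l (W.f l (K.P.symm q))) (l' := L l) (0 : ℝ)
        (by rw [zero_smul]; exact (hLd l hl).hasFDerivAt) hline
    exact h1.unique ((hasDerivAt_const (0 : ℝ) (0 : ℝ)).congr_of_eventuallyEq
      (K.eventually_axis hp1 hp2 ((h.sub l hl).mono fun y hy e1 e2 => hy ⟨e1, e2⟩)))
  set P : Fin W.d → ℝ := fun l => L l (1, 0)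
  set Q : Fin W.d → ℝ := fun l => L l (0, 1)
  have hform : ∀ l ∈ Λ, ∀ v : C2, L l v = v.1.re * P l + v.2.re * Q l := by
    intro l hl v
    have hv : v = v.1.re • ((1, 0) : C2) + v.2.re • ((0, 1) : C2) +
        ((v.1.im : ℂ) * I, (v.2.im : ℂ) * I) := by
      refine Prod.ext ?_ ?_ <;> apply Complex.ext <;> simp
    conv_lhs => rw [hv, map_add, map_add, map_smul, map_smul,
      hkill l hl ((v.1.im : ℂ) * I, (v.2.im : ℂ) * I) (by simp) (by simp), add_zero]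
    rfl
  have hLj : ∀ v : C2, L j v = v.2.re := fun v => by
    show r j (φ j (T v)) = _
    rw [show φ j (T v) = A v.2 from hA v]; exact hre _
  have hPj : P j = 0 := by simp [P, hLj]
  have hQj : Q j = 1 := by simp [Q, hLj]
  have hr0 : ∀ l ∈ Λ, r l ≠ 0 := fun l hl => h.regular l hl
  have htrans : ∀ l m, l ≠ m → r l ≠ 0 → ∀ r' : ℂ →L[ℝ] ℝ,
      ¬ ∀ v, r l (φ l (T v)) = r' (φ m (T v)) := by
    intro l m hlm hl r' hall
    refine W.transversal l m hlm x (W.source_sub h.mem) (det_eq_zero_of_re (r' := r') hl fun v => ?_)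
    obtain ⟨u, rfl⟩ := hTs v
    exact hall u
  have hQ : ∀ l ∈ Λ, Q l ≠ 0 := by
    intro l hl h0
    refine htrans l W.i₀ (h.ne l hl) (hr0 l hl) (P l • fderiv ℝ W.ρ₀ (W.f₀ x)) fun v => ?_
    rw [show r l (φ l (T v)) = L l v from rfl, hform l hl, h0,
      show φ W.i₀ (T v) = A₀ v.1 from hA₀ v, smul_apply, hre₀, smul_eq_mul]
    ring
  refine ⟨fun l => -P l / Q l, Q, by simp [hPj], hQj, hQ, fun l hl m hm he => ?_, fun ε hε => ?_⟩
  · by_contra hlm
    refine htrans l m hlm (hr0 l hl) ((Q l / Q m) • r m) fun v => ?_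
    have e : P l * Q m = P m * Q l := by
      have := (div_eq_div_iff (hQ l hl) (hQ m hm)).1 he
      linarith
    rw [show r l (φ l (T v)) = L l v from rfl, smul_apply,
      show r m (φ m (T v)) = L m v from rfl, hform l hl, hform m hm, smul_eq_mul]
    field_simp [hQ m hm]
    linear_combination v.1.re * e
  refine (Finset.eventually_all Λ).2 fun l hl => ?_
  set pr : C2 → C2 := fun p => ((p.1.im : ℂ) * I, (p.2.im : ℂ) * I)
  have hcP : Tendsto K.P (𝓝 x) (𝓝 0) := by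
    have := K.P.continuousAt K.self_mem
    rwa [ContinuousAt, K.self_eq] at this
  have hpr : Tendsto (fun y => pr (K.P y)) (𝓝 x) (𝓝 0) :=
    ((by fun_prop : Continuous pr).tendsto' 0 0 (by simp [pr])).comp hcP
  have hsymm : Tendsto (fun y => K.P.symm (pr (K.P y))) (𝓝 x) (𝓝 x) := by
    have := (K.P.symm.continuousAt K.zero_mem).tendsto
    rw [K.symm_zero] at this
    exact this.comp hpr
  filter_upwards [K.P.open_source.eventually_mem K.self_mem,
    hpr.eventually (K.P.open_target.eventually_mem K.zero_mem), hsymm.eventually (h.sub l hl),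
    (hcP.prodMk_nhds hpr).eventually ((hLd l hl).isLittleO.bound
      (mul_pos hε (abs_pos.2 (hQ l hl))))] with y hy hpy hz hb
  have hs := K.P.map_target hpy
  have hz' := hz ⟨by rw [← K.re_fst hs, K.P.right_inv hpy]; simp [pr],
    by rw [← K.re_snd hs, K.P.right_inv hpy]; simp [pr]⟩
  simp only [K.P.left_inv hy, hz', sub_zero] at hb
  have hd : K.P y - pr (K.P y) = (((W.ρ₀ (W.f₀ y) : ℝ) : ℂ), ((ρ j (W.f j y) : ℝ) : ℂ)) := by
    refine Prod.ext ?_ ?_ <;> apply Complex.ext <;> simp [pr, K.re_fst hy, K.re_snd hy]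
  rw [hd, hform l hl] at hb
  simp only [Complex.ofReal_re, Real.norm_eq_abs] at hb
  have hn : ‖((((W.ρ₀ (W.f₀ y) : ℝ) : ℂ), ((ρ j (W.f j y) : ℝ) : ℂ)) : C2)‖ ≤
      |W.ρ₀ (W.f₀ y)| + |ρ j (W.f j y)| := by
    rw [Prod.norm_def, Complex.norm_real, Complex.norm_real]
    exact max_le (le_add_of_nonneg_right (abs_nonneg _)) (le_add_of_nonneg_left (abs_nonneg _))
  have hq := abs_pos.2 (hQ l hl)
  have hQl := hQ l hl
  rw [show ρ l (W.f l y) / Q l - (ρ j (W.f j y) - -P l / Q l * W.ρ₀ (W.f₀ y)) =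
    (ρ l (W.f l y) - (W.ρ₀ (W.f₀ y) * P l + ρ j (W.f j y) * Q l)) / Q l by field_simp; ring,
    abs_div, div_le_iff₀ hq]
  nlinarith [mul_le_mul_of_nonneg_left hn (mul_pos hε hq).le]

/-- Order of the walls next to the piece. -/
theorem Web.Cfg.exists_order (h : W.Cfg j Λ ρ x) : ∃ σ q : Fin W.d → ℝ, q j = 1 ∧
    (∀ l ∈ Λ, q l ≠ 0) ∧ InjOn σ Λ ∧
    ∀ᶠ y in 𝓝 x, ∀ l ∈ Λ,
      (W.ρ₀ (W.f₀ y) = 0 → (ρ l (W.f l y) = 0 ↔ ρ j (W.f j y) = 0) ∧
        (0 < ρ l (W.f l y) / q l ↔ 0 < ρ j (W.f j y))) ∧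
      (0 < W.ρ₀ (W.f₀ y) → ρ l (W.f l y) = 0 →
        ∀ m ∈ Λ, σ l < σ m → ρ m (W.f m y) / q m < 0) := by
  classical
  obtain ⟨σ, q, -, hqj, hq, hinj, hest⟩ := h.exists_slopes
  obtain ⟨M, hM⟩ := (Λ.image fun l => |σ l|).exists_le
  have hgap : ∃ γ > (0 : ℝ), ∀ l ∈ Λ, ∀ m ∈ Λ, σ l < σ m → γ ≤ σ m - σ l := by
    by_cases hne : ((Λ ×ˢ Λ).filter fun q => σ q.1 < σ q.2).Nonempty
    · obtain ⟨q₀, hq₀, hmin⟩ := Finset.exists_min_image _ (fun q => σ q.2 - σ q.1) hne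
      exact ⟨_, sub_pos.2 (Finset.mem_filter.1 hq₀).2, fun l hl m hm hlm =>
        hmin (l, m) (Finset.mem_filter.2 ⟨Finset.mem_product.2 ⟨hl, hm⟩, hlm⟩)⟩
    · exact ⟨1, one_pos, fun l hl m hm hlm =>
        absurd ⟨(l, m), Finset.mem_filter.2 ⟨Finset.mem_product.2 ⟨hl, hm⟩, hlm⟩⟩ hne⟩
  obtain ⟨γ, hγ, hgap⟩ := hgap
  set N := 2 * |M| + 2 with hN
  have hN1 : 2 ≤ N := by rw [hN]; linarith [abs_nonneg M]
  set ε := min (1 / 2) (γ / (8 * N)) with hε
  have hε0 : 0 < ε := lt_min one_half_pos (by positivity)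
  have hεγ : ε * (8 * N) ≤ γ := by
    have := min_le_right (1 / 2 : ℝ) (γ / (8 * N))
    rw [← hε, le_div_iff₀ (by positivity)] at this
    exact this
  have hε2 : ε ≤ 1 / 2 := min_le_left _ _
  refine ⟨σ, q, hqj, hq, hinj, ?_⟩
  filter_upwards [hest ε hε0] with y hy l hl
  have h1 := hy l hl
  set a := W.ρ₀ (W.f₀ y)
  set b := ρ j (W.f j y)
  set g := ρ l (W.f l y) / q l with hg
  have hzero : ρ l (W.f l y) = 0 ↔ g = 0 := by simp [hg, hq l hl]
  refine ⟨fun ha => ?_, fun ha h0 m hm hlm => ?_⟩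
  · rw [ha, mul_zero, sub_zero, abs_zero, zero_add] at h1
    obtain ⟨h2, h3⟩ := abs_le.1 h1
    rcases lt_trichotomy b 0 with hb | hb | hb
    · rw [abs_of_neg hb] at h2 h3
      have : g < 0 := by nlinarith
      exact ⟨by rw [hzero]; exact ⟨fun h => absurd h this.ne, fun h => absurd h hb.ne⟩,
        ⟨fun h => absurd h this.le.not_gt, fun h => absurd h hb.le.not_gt⟩⟩
    · have : g = 0 := by simp [hb] at h2 h3; linarith
      simp [hzero, this, hb]
    · rw [abs_of_pos hb] at h2 h3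
      have : 0 < g := by nlinarith
      simp [hzero, this, this.ne', hb, hb.ne']
  · have h2 := hy m hm
    have hg0 : g = 0 := hzero.1 h0
    rw [hg0, abs_of_pos ha] at h1
    rw [abs_of_pos ha] at h2
    have hs : |σ l| ≤ |M| := (hM _ (Finset.mem_image_of_mem _ hl)).trans (le_abs_self M)
    have hb : |b| ≤ N * a := by
      have e1 : |b - σ l * a| ≤ ε * (a + |b|) := by
        rwa [zero_sub, abs_neg] at h1
      have e2 : |b| ≤ |b - σ l * a| + |σ l| * a := by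
        have := abs_sub_abs_le_abs_sub b (σ l * a)
        rw [abs_mul, abs_of_pos ha] at this
        linarith
      nlinarith [abs_nonneg b]
    have e3 : ε * (a + |b|) * 2 < γ * a := by
      have : ε * (a + |b|) ≤ ε * ((N + 1) * a) :=
        mul_le_mul_of_nonneg_left (by linarith) hε0.le
      nlinarith [mul_pos hε0 ha]
    have e4 := mul_le_mul_of_nonneg_right (hgap l hl m hm hlm) ha.le
    rw [zero_sub, abs_neg] at h1
    linarith [(abs_le.1 h2).2, (abs_le.1 h1).1, (abs_le.1 h1).2]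

end

end Vale.Agent.P274.Surface
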